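import Vale.Agent.P318.R2.H378.Imp

/-!
# Either a subgroup with small weight outside, or a value of modulus at most `1/√2`
-/

open Finset
open scoped ComplexConjugate InnerProductSpace

set_option linter.unusedSectionVars false

namespace Vale.Agent.P318.R2.H378

open Vale.Agent.P318.R2.H356

section

variable {G : Type*} [Group G]

/-- the subgroup generated by the conjugates `y D y⁻¹`, `y ∈ T` -/
def XT (D : Subgroup G) (T : Finset G) : Subgroup G := ⨆ y ∈ T, cj y D

lemma cj_iSup {ι : Sort*} (g : G) (f : ι → Subgroup G) : cj g (⨆ i, f i) = ⨆ i, cj g (f i) :=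
  Subgroup.map_iSup _ _

lemma cj_sup (g : G) (X Y : Subgroup G) : cj g (X ⊔ Y) = cj g X ⊔ cj g Y :=
  Subgroup.map_sup _ _ _

lemma cj_XT [DecidableEq G] (g : G) (D : Subgroup G) (T : Finset G) :
    cj g (XT D T) = XT D (T.image fun y => g * y) := by
  unfold XT
  rw [cj_iSup]
  simp_rw [cj_iSup, ← cj_mul]
  rw [Finset.iSup_finset_image]

lemma XT_union [DecidableEq G] (D : Subgroup G) (T T' : Finset G) :
    XT D (T ∪ T') = XT D T ⊔ XT D T' := Finset.iSup_union

lemma XT_empty (D : Subgroup G) : XT D ∅ = ⊥ := by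
  unfold XT
  simp

lemma XT_one (D : Subgroup G) : XT D {1} = D := by
  unfold XT
  simp [cj_one]

lemma le_XT {D : Subgroup G} {T : Finset G} {y : G} (hy : y ∈ T) : cj y D ≤ XT D T :=
  le_iSup₂_of_le y hy le_rfl

lemma cj_comm_le {L : Subgroup G} {n : G} (hn : cj n L ≤ L) : cj n ⁅L, L⁆ ≤ ⁅L, L⁆ := by
  unfold cj at hn ⊢
  rw [Subgroup.map_commutator]
  exact Subgroup.commutator_mono hn hn

lemma cj_XT_le {N D : Subgroup G} [hN : N.Normal] (hD : ∀ n ∈ N, cj n D ≤ D) (T : Finset G)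
    {n : G} (hn : n ∈ N) : cj n (XT D T) ≤ XT D T := by
  unfold XT
  rw [cj_iSup]
  simp_rw [cj_iSup]
  apply iSup₂_le
  intro y hy
  have h1 : cj n (cj y D) = cj y (cj (y⁻¹ * n * y) D) := by
    rw [← cj_mul, ← cj_mul]
    congr 1
    group
  rw [h1]
  have h2 : y⁻¹ * n * y ∈ N := by
    have := hN.conj_mem n hn y⁻¹
    rwa [inv_inv] at this
  exact (cj_mono (hD _ h2)).trans (le_XT hy)

lemma XT_le {N D : Subgroup G} [hN : N.Normal] (hD : D ≤ N) (T : Finset G) : XT D T ≤ N := by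
  unfold XT
  apply iSup₂_le
  intro y _ x hx
  rw [mem_cj] at hx
  have := hN.conj_mem _ (hD hx) y
  have h2 : y * (y⁻¹ * x * y) * y⁻¹ = x := by group
  rwa [h2] at this

variable [Fintype G]

lemma cd_mono {X Y : Subgroup G} (h : X ≤ Y) : cd X ≤ cd Y := by
  classical
  unfold cd
  apply card_le_card
  intro x hx
  rw [mem_filter] at hx ⊢
  exact ⟨hx.1, h hx.2⟩

lemma eq_of_cd_le {X Y : Subgroup G} (h : X ≤ Y) (hc : cd Y ≤ cd X) : X = Y := by
  classical
  unfold cd at hc
  have h1 : (univ.filter fun x => x ∈ X) = univ.filter fun x => x ∈ Y := by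
    apply eq_of_subset_of_card_le _ hc
    intro x hx
    rw [mem_filter] at hx ⊢
    exact ⟨hx.1, h hx.2⟩
  apply le_antisymm h
  intro x hx
  have h2 : x ∈ univ.filter fun x => x ∈ Y := mem_filter.2 ⟨mem_univ _, hx⟩
  rw [← h1, mem_filter] at h2
  exact h2.2

/-- the stabiliser of a vector -/
noncomputable def fixS (v : Sp G) : Subgroup G where
  carrier := {g | U g v = v}
  one_mem' := U_one v
  mul_mem' := by
    intro x y hx hy
    have hx' : U x v = v := hx
    have hy' : U y v = v := hy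
    show U (x * y) v = v
    rw [U_mul, hy', hx']
  inv_mem' := by
    intro x hx
    have hx' : U x v = v := hx
    show U x⁻¹ v = v
    conv_lhs => rw [← hx']
    rw [← U_mul, inv_mul_cancel, U_one]

lemma av_sum {ι : Type*} (W : Subgroup G) (s : Finset ι) (f : ι → Sp G) :
    av W (∑ i ∈ s, f i) = ∑ i ∈ s, av W (f i) := by
  classical
  unfold av
  simp_rw [map_sum]
  rw [sum_comm]

lemma av_av_le {Y W : Subgroup G} (h : Y ≤ W) (v : Sp G) :
    av W (av Y v) = (cd Y : ℂ) • av W v := by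
  classical
  have h1 : av Y v = ∑ x with x ∈ Y, U x v := rfl
  rw [h1, av_sum]
  rw [sum_congr rfl (g := fun _ => av W v)]
  · rw [sum_const, Nat.cast_smul_eq_nsmul]
    rfl
  · intro x hx
    exact av_U W (h (mem_filter.1 hx).2) v

lemma av_smul (W : Subgroup G) (a : ℂ) (v : Sp G) : av W (a • v) = a • av W v := by
  classical
  unfold av
  simp_rw [map_smul]
  rw [smul_sum]

/-- the product of two averages vanishes when the average over the join does -/
lemma av_av_eq_zero {Y Y' : Subgroup G} {ξ : Sp G} (hnorm : ∀ z ∈ Y', cj z Y = Y)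
    (h0 : av (Y ⊔ Y') ξ = 0) : av Y (av Y' ξ) = 0 := by
  set v := av Y (av Y' ξ) with hv
  have h1 : Y ⊔ Y' ≤ fixS v := by
    apply sup_le
    · intro z hz
      exact U_av Y hz _
    · intro z hz
      show U z v = v
      rw [hv, U_av_cj, hnorm z hz, U_av Y' hz]
  have h2 : av (Y ⊔ Y') v = (cd (Y ⊔ Y') : ℂ) • v := av_of_fixed _ fun x hx => h1 hx
  rw [hv, av_av_le le_sup_left, av_av_le le_sup_right, h0, smul_zero, smul_zero, ← hv] at h2
  have h3 : (cd (Y ⊔ Y') : ℂ) ≠ 0 := by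
    have := cd_pos (Y ⊔ Y')
    norm_cast
    omega
  exact (smul_eq_zero.1 h2.symm).resolve_left h3

open Classical in
/-- **The dichotomy.** -/
theorem or_half {α : G → ℂ} (hα : IsChr α) {c : G → ℝ} (hc : ∀ g, 0 ≤ c g) (N : Subgroup G)
    [hN : N.Normal] (L : Subgroup G) (hLN : L ≤ N) (hn : ∀ n ∈ N, ∀ x ∈ L, n * x * n⁻¹ ∈ L)
    (hD : ∃ x ∈ L, ∃ y ∈ L, ‖α (x * y * x⁻¹ * y⁻¹)‖ ≠ 1) :
    (∃ H : Subgroup G, H ≠ ⊤ ∧ ∑ g with g ∉ H, c g ≤ ∑ g, c g * (1 - ‖α g‖)) ∨
      ∃ n ∈ L, ‖α n‖ ^ 2 ≤ 1 / 2 := by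
  obtain ⟨ξ, hξ⟩ := hα.rep
  set D := ⁅L, L⁆ with hDdef
  have hDL : D ≤ L := by
    rw [hDdef, Subgroup.commutator_le]
    intro x hx y hy
    exact L.mul_mem (L.mul_mem (L.mul_mem hx hy) (L.inv_mem hx)) (L.inv_mem hy)
  have hcjL : ∀ n ∈ N, cj n L ≤ L := by
    intro n hnN x hx
    rw [mem_cj] at hx
    have := hn n hnN _ hx
    have h2 : n * (n⁻¹ * x * n) * n⁻¹ = x := by group
    rwa [h2] at this
  have hcjD : ∀ n ∈ N, cj n D ≤ D := fun n hnN => cj_comm_le (hcjL n hnN)
  -- a maximal set of conjugates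
  obtain ⟨T, hT, hmax⟩ := exists_max_image
    ((univ : Finset (Finset G)).filter fun T => sa α (XT D T) ≠ 0) (fun T => cd (XT D T))
    ⟨∅, mem_filter.2 ⟨mem_univ _, by
      rw [XT_empty]
      unfold sa
      have : (univ.filter fun x : G => x ∈ (⊥ : Subgroup G)) = {1} := by
        ext x; simp [Subgroup.mem_bot]
      rw [this]
      simp [hα.one]⟩⟩
  have hT0 : sa α (XT D T) ≠ 0 := (mem_filter.1 hT).2
  have hmax' : ∀ T' : Finset G, sa α (XT D T') ≠ 0 → cd (XT D T') ≤ cd (XT D T) := fun T' h =>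
    hmax T' (mem_filter.2 ⟨mem_univ _, h⟩)
  by_cases hnormal : ∀ g, cj g (XT D T) = XT D T
  · right
    have hone : ∀ g ∈ XT D T, α g = 1 := fun g hg => one_of_normal hα _ hnormal hT0 hg
    obtain ⟨x, hx, y, hy, hxy⟩ := hD
    have hxyD : x * y * x⁻¹ * y⁻¹ ∈ D := Subgroup.commutator_mem_commutator hx hy
    have hTe : T = ∅ := by
      by_contra hne
      obtain ⟨z, hz⟩ := nonempty_iff_ne_empty.2 hne
      have h1 : z * (x * y * x⁻¹ * y⁻¹) * z⁻¹ ∈ XT D T := le_XT hz (conj_mem_cj hxyD)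
      have h2 := hone _ h1
      rw [hα.cls] at h2
      apply hxy
      rw [h2, norm_one]
    apply half hα hξ L
    by_cases hs : sa α D = 0
    · exact norm_av hξ D hs
    · exfalso
      have h1 := hmax' {1} (by rw [XT_one]; exact hs)
      rw [XT_one, hTe, XT_empty] at h1
      have h2 : (⊥ : Subgroup G) = D := eq_of_cd_le bot_le h1
      rw [← h2, Subgroup.mem_bot] at hxyD
      apply hxy
      rw [hxyD, hα.one, norm_one]
  · left
    obtain ⟨y, hy⟩ := imp hα hξ hc (XT D T) hT0 (by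
      intro y y' hyy
      have hcdY : cd (cj y (XT D T)) = cd (XT D T) := cd_cj _ _
      have hcdY' : cd (cj y' (XT D T)) = cd (XT D T) := cd_cj _ _
      have hW : sa α (cj y (XT D T) ⊔ cj y' (XT D T)) = 0 := by
        by_contra h
        have h1 : cd (cj y (XT D T) ⊔ cj y' (XT D T)) ≤ cd (XT D T) := by
          rw [cj_XT, cj_XT, ← XT_union] at h ⊢
          exact hmax' _ h
        have h2 : cj y (XT D T) = cj y (XT D T) ⊔ cj y' (XT D T) :=
          eq_of_cd_le le_sup_left (by rw [hcdY]; exact h1)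
        have h3 : cj y' (XT D T) = cj y (XT D T) ⊔ cj y' (XT D T) :=
          eq_of_cd_le le_sup_right (by rw [hcdY']; exact h1)
        exact hyy (h2.trans h3.symm)
      apply av_av_eq_zero _ (norm_av hξ _ hW)
      intro z hz
      have hzN : z ∈ N := by
        rw [cj_XT] at hz
        exact XT_le (hDL.trans hLN) _ hz
      apply eq_of_cd_le
      · rw [cj_XT y]
        exact cj_XT_le hcjD _ hzN
      · rw [cd_cj z])
    refine ⟨Hy y (XT D T), ?_, hy⟩
    intro htop
    apply hnormal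
    have hall : ∀ g, cj g (cj y (XT D T)) = cj y (XT D T) := by
      intro g
      have : g ∈ Hy y (XT D T) := by rw [htop]; trivial
      exact this
    have h1 : XT D T = cj y (XT D T) := by
      have := hall y⁻¹
      rw [← cj_mul, inv_mul_cancel, cj_one] at this
      exact this
    intro g
    have := hall g
    rw [← h1] at this
    exact this

end

end Vale.Agent.P318.R2.H378
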