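import Vale.Agent.P318.R2.H356.Abel
import Vale.Agent.P318.R2.H924.Sub

/-!
# Commuting elements with the same value of the character
-/

open Finset
open scoped ComplexConjugate InnerProductSpace

set_option linter.unusedSectionVars false

namespace Vale.Agent.P318.R2.H378

open Vale.Agent.P318.R2.H356 Vale.Agent.P318.R2.H924

variable {G : Type*} [Group G] [Fintype G]

/-- commutators of a closure -/
lemma comm_closure {α : G → ℂ} (hα : IsChr α) {s : Set G}
    (h : ∀ a ∈ s, ∀ b ∈ s, α (a * b * a⁻¹ * b⁻¹) = 1) :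
    ∀ a ∈ Subgroup.closure s, ∀ b ∈ Subgroup.closure s, α (a * b * a⁻¹ * b⁻¹) = 1 := by
  have hK : ∀ {g : G}, g ∈ kk hα ↔ α g = 1 := fun {g} => mem_kk hα g
  intro a ha b hb
  rw [← hK]
  induction ha, hb using Subgroup.closure_induction₂ with
  | mem x y hx hy => exact hK.2 (h x hx y hy)
  | one_left x hx =>
    have e : (1 : G) * x * 1⁻¹ * x⁻¹ = 1 := by group
    rw [e]; exact one_mem _
  | one_right x hx =>
    have e : x * 1 * x⁻¹ * (1 : G)⁻¹ = 1 := by group
    rw [e]; exact one_mem _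
  | mul_left x y z hx hy hz h1 h2 =>
    have e : x * y * z * (x * y)⁻¹ * z⁻¹ =
        (x * (y * z * y⁻¹ * z⁻¹) * x⁻¹) * (x * z * x⁻¹ * z⁻¹) := by group
    rw [e]
    exact mul_mem (kk_conj hα h2 x) h1
  | mul_right x y z hx hy hz h1 h2 =>
    have e : z * (x * y) * z⁻¹ * (x * y)⁻¹ =
        (z * x * z⁻¹ * x⁻¹) * (x * (z * y * z⁻¹ * y⁻¹) * x⁻¹) := by group
    rw [e]
    exact mul_mem h1 (kk_conj hα h2 x)
  | inv_left x y hx hy h1 =>
    have e : x⁻¹ * y * x⁻¹⁻¹ * y⁻¹ = x⁻¹ * (x * y * x⁻¹ * y⁻¹)⁻¹ * x⁻¹⁻¹ := by group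
    rw [e]
    exact kk_conj hα (inv_mem h1) x⁻¹
  | inv_right x y hx hy h1 =>
    have e : x * y⁻¹ * x⁻¹ * y⁻¹⁻¹ = y⁻¹ * (x * y * x⁻¹ * y⁻¹)⁻¹ * y⁻¹⁻¹ := by group
    rw [e]
    exact kk_conj hα (inv_mem h1) y⁻¹

/-- the spectral weights are nonnegative (no normality) -/
lemma bt_nonneg {α : G → ℂ} (hα : IsChr α) {A : Subgroup G} [Fintype A]
    (l : AddChar (Additive (Abelianization A)) ℂ) :
    bt α 1 l = (((bt α 1 l).re : ℝ) : ℂ) ∧ 0 ≤ (bt α 1 l).re := by
  obtain ⟨ξ, hξ⟩ := hα.rep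
  have h2 := inner_wv ξ l (U_wv ξ l)
  rw [← U_one (wv ξ l), ← bt_eq hξ, U_one] at h2
  rw [inner_self_eq_norm_sq_to_K] at h2
  have hA : (Fintype.card A : ℂ) ≠ 0 := Nat.cast_ne_zero.2 Fintype.card_ne_zero
  have h1 : bt α 1 l = ((‖wv ξ l‖ ^ 2 / Fintype.card A : ℝ) : ℂ) := by
    push_cast
    rw [eq_div_iff hA, mul_comm, ← h2]
    simp
  rw [h1, Complex.ofReal_re]
  exact ⟨rfl, by positivity⟩

lemma bt_mem {α : G → ℂ} {A : Subgroup G} [Fintype A]
    (l : AddChar (Additive (Abelianization A)) ℂ) (b : A) :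
    bt α b l = ch l b * bt α 1 l := by
  unfold bt
  rw [mul_sum]
  conv_rhs => rw [← Equiv.sum_comp (Equiv.mulLeft b)]
  apply sum_congr rfl
  intro a _
  rw [Equiv.coe_mulLeft, ch_mul, map_mul, one_mul, Subgroup.coe_mul]
  have h := ch_mul_conj l b
  linear_combination (-(conj (ch l a)) * α ((b : G) * a)) * h

/-- spectral decomposition on a subgroup which is abelian modulo the kernel -/
lemma spectral {α : G → ℂ} (hα : IsChr α) {A : Subgroup G} [Fintype A]
    (hab : ∀ a ∈ A, ∀ b ∈ A, α (a * b * a⁻¹ * b⁻¹) = 1) :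
    ∃ β : AddChar (Additive (Abelianization A)) ℂ → ℝ, (∀ l, 0 ≤ β l) ∧ ∑ l, β l = 1 ∧
      ∀ b : A, α b = ∑ l, (β l : ℂ) * ch l b := by
  obtain ⟨κ, hκ, hsum⟩ := sum_bt hα hab
  have hκ' : (κ : ℂ) ≠ 0 := by exact_mod_cast hκ.ne'
  have hb : ∀ b : A, α b = ∑ l, (((bt α 1 l).re / κ : ℝ) : ℂ) * ch l b := by
    intro b
    have h1 := hsum (b : G)
    have h2 : α b = (∑ l : AddChar (Additive (Abelianization A)) ℂ, bt α (b : G) l) / κ := by
      rw [h1]; field_simp
    rw [h2, sum_div]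
    apply sum_congr rfl
    intro l _
    rw [bt_mem]
    conv_lhs => rw [(bt_nonneg hα l).1]
    push_cast
    ring
  refine ⟨fun l => (bt α 1 l).re / κ, fun l => div_nonneg (bt_nonneg hα l).2 hκ.le, ?_, hb⟩
  have h1 := hb 1
  rw [Subgroup.coe_one, hα.one] at h1
  simp_rw [ch_one, mul_one] at h1
  have h2 := congrArg Complex.re h1
  rw [Complex.re_sum, Complex.one_re] at h2
  simp only [Complex.ofReal_re] at h2
  exact h2.symm

/-- `1 - ∏ t ≤ ∑ (1 - t)` on `[-1, 1]` -/
lemma one_sub_prod_le {ι : Type*} (s : Finset ι) (t : ι → ℝ) (h1 : ∀ i, |t i| ≤ 1) :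
    1 - ∏ i ∈ s, t i ≤ ∑ i ∈ s, (1 - t i) ∧ |∏ i ∈ s, t i| ≤ 1 := by
  classical
  induction s using Finset.induction_on with
  | empty => simp
  | insert i s hi ih =>
    rw [prod_insert hi, sum_insert hi]
    obtain ⟨ih1, ih2⟩ := ih
    have h2 := abs_le.1 (h1 i)
    have h3 := abs_le.1 ih2
    refine ⟨?_, ?_⟩
    · nlinarith [mul_nonneg (sub_nonneg.2 h2.2) (sub_nonneg.2 h3.2)]
    · rw [abs_mul]
      calc |t i| * |∏ i ∈ s, t i| ≤ 1 * 1 :=
            mul_le_mul (h1 i) ih2 (abs_nonneg _) zero_le_one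
        _ = 1 := by norm_num

/-- the sign of a Boolean -/
def sg (b : Bool) : ℤ := if b then 1 else -1

/-- **Commuting elements.** -/
theorem commuting {α : G → ℂ} (hα : IsChr α) {m : ℕ} (u : Fin m → G) {x : G}
    (hx : ∀ i, α (u i) = α x) (hcomm : ∀ i j, α (u i * u j * (u i)⁻¹ * (u j)⁻¹) = 1) :
    ∃ e : Fin m → ℤ, (∀ i, e i = 1 ∨ e i = -1) ∧
      1 - ‖α (List.ofFn fun i => u i ^ e i).prod‖ ≤ m * (1 - ‖α x‖) := by
  classical
  set A := Subgroup.closure (Set.range u) with hA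
  have hab : ∀ a ∈ A, ∀ b ∈ A, α (a * b * a⁻¹ * b⁻¹) = 1 := by
    apply comm_closure hα
    rintro a ⟨i, rfl⟩ b ⟨j, rfl⟩
    exact hcomm i j
  have : Fintype A := Fintype.ofFinite _
  obtain ⟨β, hβ0, hβ1, hβ⟩ := spectral hα hab
  let v : Fin m → A := fun i => ⟨u i, Subgroup.subset_closure ⟨i, rfl⟩⟩
  -- the phase
  obtain ⟨w, hw, hwx⟩ : ∃ w : ℂ, ‖w‖ = 1 ∧ w * α x = (‖α x‖ : ℂ) := by
    by_cases h : α x = 0
    · exact ⟨1, by simp, by simp [h]⟩
    · refine ⟨conj (α x) / ‖α x‖, ?_, ?_⟩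
      · have : ‖α x‖ ≠ 0 := norm_ne_zero_iff.2 h
        simp [this]
      · have h1 : (‖α x‖ : ℂ) ≠ 0 := by exact_mod_cast norm_ne_zero_iff.2 h
        rw [div_mul_eq_mul_div, mul_comm (conj (α x)), Complex.mul_conj', sq]
        field_simp
  -- the factors
  let Z : AddChar (Additive (Abelianization A)) ℂ → Fin m → Bool → ℂ := fun l i b =>
    if b then w * ch l (v i) else conj (w * ch l (v i))
  let t : AddChar (Additive (Abelianization A)) ℂ → Fin m → ℝ := fun l i => (w * ch l (v i)).re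
  have ht : ∀ l i, |t l i| ≤ 1 := by
    intro l i
    calc |t l i| ≤ ‖w * ch l (v i)‖ := Complex.abs_re_le_norm _
      _ = 1 := by rw [norm_mul, hw, norm_ch, one_mul]
  have hZ : ∀ l i, ∑ b : Bool, Z l i b = ((2 * t l i : ℝ) : ℂ) := by
    intro l i
    rw [Fintype.sum_bool]
    simp only [Z, if_true, Bool.false_eq_true, if_false]
    rw [Complex.add_conj]
  have hsumZ : ∀ l, ∑ s : Fin m → Bool, ∏ i, Z l i (s i) = ((2 ^ m * ∏ i, t l i : ℝ) : ℂ) := by
    intro l
    have h1 := Finset.prod_univ_sum (fun _ : Fin m => (univ : Finset Bool)) (fun i b => Z l i b)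
    rw [Fintype.piFinset_univ] at h1
    rw [← h1]
    simp_rw [hZ]
    push_cast
    rw [prod_mul_distrib]
    simp
  let om : Bool → ℂ := fun b => if b then w else conj w
  have hom : ∀ b, ‖om b‖ = 1 := by
    intro b
    cases b <;> simp [om, hw]
  let pr : (Fin m → Bool) → G := fun s => (List.ofFn fun i => u i ^ sg (s i)).prod
  have hpr : ∀ s : Fin m → Bool, (∏ i, om (s i)) * α (pr s) =
      ∑ l, (β l : ℂ) * ∏ i, Z l i (s i) := by
    intro s
    have h1 : pr s = (((List.ofFn fun i => v i ^ sg (s i)).prod : A) : G) := by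
      have h2 := map_list_prod A.subtype (List.ofFn fun i => v i ^ sg (s i))
      rw [List.map_ofFn] at h2
      exact h2.symm
    rw [h1, hβ, mul_sum]
    apply sum_congr rfl
    intro l _
    let chH : A →* ℂ := { toFun := ch l, map_one' := ch_one l, map_mul' := ch_mul l }
    have h3 : ch l (List.ofFn fun i => v i ^ sg (s i)).prod = ∏ i, ch l (v i ^ sg (s i)) := by
      have h4 := map_list_prod chH (List.ofFn fun i => v i ^ sg (s i))
      rw [List.map_ofFn, List.prod_ofFn] at h4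
      exact h4
    rw [h3]
    have h5 : ∀ i, Z l i (s i) = om (s i) * ch l (v i ^ sg (s i)) := by
      intro i
      simp only [Z, om, sg]
      cases s i
      · simp only [Bool.false_eq_true, if_false]
        rw [zpow_neg, zpow_one, ch_inv, map_mul]
      · simp only [if_true]
        rw [zpow_one]
    simp_rw [h5]
    rw [prod_mul_distrib]
    ring
  -- the mean over the signs
  have hmean : ∑ s : Fin m → Bool, ((∏ i, om (s i)) * α (pr s)).re =
      2 ^ m * ∑ l, β l * ∏ i, t l i := by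
    rw [← Complex.re_sum]
    simp_rw [hpr]
    rw [sum_comm]
    simp_rw [← mul_sum, hsumZ]
    have h1 : ∀ l, (β l : ℂ) * ((2 ^ m * ∏ i, t l i : ℝ) : ℂ) =
        ((2 ^ m * (β l * ∏ i, t l i) : ℝ) : ℂ) := by
      intro l
      push_cast
      ring
    simp_rw [h1]
    rw [← Complex.ofReal_sum, Complex.ofReal_re, mul_sum]
  have hlow : 1 - m * (1 - ‖α x‖) ≤ ∑ l, β l * ∏ i, t l i := by
    have h1 : ∀ i, ∑ l, β l * t l i = ‖α x‖ := by
      intro i
      have h2 : w * α (u i) = ∑ l, (β l : ℂ) * (w * ch l (v i)) := by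
        have h3 : α (u i) = ∑ l, (β l : ℂ) * ch l (v i) := hβ (v i)
        rw [h3, mul_sum]
        apply sum_congr rfl
        intro l _
        ring
      rw [hx i, hwx] at h2
      have h4 := congrArg Complex.re h2
      rw [Complex.ofReal_re, Complex.re_sum] at h4
      rw [h4]
      apply sum_congr rfl
      intro l _
      rw [Complex.re_ofReal_mul]
    have h5 : ∀ l, β l * (1 - ∑ i, (1 - t l i)) ≤ β l * ∏ i, t l i := by
      intro l
      apply mul_le_mul_of_nonneg_left _ (hβ0 l)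
      have := (one_sub_prod_le (univ : Finset (Fin m)) (t l) (ht l)).1
      linarith
    refine le_trans (le_of_eq ?_) (sum_le_sum fun l _ => h5 l)
    have h6 : ∑ l, β l * (1 - ∑ i, (1 - t l i)) =
        ∑ l, β l - ∑ i, (∑ l, β l - ∑ l, β l * t l i) := by
      have h7 : ∀ l, β l * (1 - ∑ i, (1 - t l i)) = β l - ∑ i, (β l - β l * t l i) := by
        intro l
        rw [mul_sub, mul_one, mul_sum]
        congr 1
        apply sum_congr rfl
        intro i _
        ring
      simp_rw [h7, sum_sub_distrib]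
      congr 1
      rw [sum_comm]
      congr 1
      rw [sum_comm]
    rw [h6, hβ1]
    simp_rw [h1]
    rw [sum_const, card_univ, Fintype.card_fin, nsmul_eq_mul]
  obtain ⟨s, -, hs⟩ := exists_le_of_sum_le (s := (univ : Finset (Fin m → Bool)))
    (f := fun _ => 1 - m * (1 - ‖α x‖)) (g := fun s => ((∏ i, om (s i)) * α (pr s)).re)
    univ_nonempty (by
      rw [hmean, sum_const, card_univ, nsmul_eq_mul]
      have hc : (Fintype.card (Fin m → Bool) : ℝ) = 2 ^ m := by simp
      rw [hc]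
      exact mul_le_mul_of_nonneg_left hlow (by positivity))
  refine ⟨fun i => sg (s i), fun i => ?_, ?_⟩
  · by_cases h : s i = true
    · left; simp [sg, h]
    · right; simp [sg, h]
  · have h1 : ((∏ i, om (s i)) * α (pr s)).re ≤ ‖α (pr s)‖ := by
      calc _ ≤ ‖(∏ i, om (s i)) * α (pr s)‖ := Complex.re_le_norm _
        _ = ‖α (pr s)‖ := by
          rw [norm_mul, norm_prod]
          simp_rw [hom]
          simp
    have h2 : pr s = (List.ofFn fun i => u i ^ sg (s i)).prod := rfl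
    rw [← h2]
    linarith

end Vale.Agent.P318.R2.H378
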