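import Vale.Agent.P318.R2.H378.Max

/-!
# The dichotomy with the mean of the squares of the normalised character
-/

open Finset
open scoped ComplexConjugate InnerProductSpace

set_option linter.unusedSectionVars false

namespace Vale.Agent.P318.R2.H378

open Vale.Agent.P318.R2.H356

variable {G : Type*} [Group G] [Fintype G]

open Classical in
/-- **The operator lemma, mean version.** -/
theorem half' {α : G → ℂ} (hα : IsChr α) {ξ : Sp G} (hξ : ∀ g, α g = ⟪ξ, U g ξ⟫_ℂ)
    (L : Subgroup G) (h0 : av ⁅L, L⁆ ξ = 0) :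
    ∑ n with n ∈ L, ‖α n‖ ^ 2 ≤ (cd L : ℝ) / 2 := by
  classical
  by_contra hcon
  push Not at hcon
  have hnorm := norm_xi hα.one hξ
  -- a maximiser on the unit sphere
  obtain ⟨v, hv, hmax⟩ := (isCompact_sphere (0 : Sp G) 1).exists_isMaxOn
    ⟨ξ, by simp [hnorm]⟩ (qf_continuous L ξ).continuousOn
  have hv1 : ‖v‖ = 1 := by simpa using hv
  set t := qf L ξ v with ht
  have hle : ∀ w : Sp G, qf L ξ w ≤ t * ‖w‖ ^ 2 := by
    intro w
    by_cases hw : w = 0
    · subst hw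
      have := qf_smul L ξ (0 : Sp G) 0
      simp at this
      simp [this]
    · have hwn : 0 < ‖w‖ := norm_pos_iff.2 hw
      have h1 : ‖((‖w‖⁻¹ : ℝ) : ℂ) • w‖ = 1 := by
        rw [norm_smul]
        simp [hwn.ne']
      have h2 : qf L ξ (((‖w‖⁻¹ : ℝ) : ℂ) • w) ≤ t :=
        hmax (by simpa using h1)
      rw [qf_smul] at h2
      have h3 : ‖((‖w‖⁻¹ : ℝ) : ℂ)‖ = ‖w‖⁻¹ := by simp
      rw [h3] at h2
      have h4 : qf L ξ w = (‖w‖⁻¹ ^ 2 * qf L ξ w) * ‖w‖ ^ 2 := by
        field_simp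
      rw [h4]
      exact mul_le_mul_of_nonneg_right h2 (by positivity)
  have hcd : (cd L : ℝ) / 2 < t := by
    have h1 : (cd L : ℝ) / 2 < qf L ξ ξ := by
      refine hcon.trans_le (le_of_eq ?_)
      unfold qf
      apply sum_congr rfl
      intro n _
      rw [← norm_inner_symm, ← hξ]
    have h4 := hle ξ
    rw [hnorm] at h4
    linarith
  -- `L` acts by scalars on `v`
  have hscal : ∀ x ∈ L, ∃ c : ℂ, U x v = c • v := by
    intro x hx
    set c : ℂ := ⟪v, U x v⟫_ℂ with hc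
    refine ⟨c, ?_⟩
    set w := U x v - c • v with hw
    have horth : ⟪v, w⟫_ℂ = 0 := by
      rw [hw, inner_sub_right, inner_smul_right, inner_self_eq_norm_sq_to_K, hv1]
      simp [hc]
    have hx1 : qf L ξ (U x v) = t := qf_U L ξ v hx
    have hxn : ‖U x v‖ = 1 := by rw [norm_U, hv1]
    have hq : t * ‖w‖ ^ 2 ≤ qf L ξ w := by
      have h1 := qf_parallelogram L ξ (U x v) (c • v)
      rw [hx1, qf_smul, ← ht] at h1
      have h2 := hle (U x v + c • v)
      have h3 := parallelogram_law_with_norm ℂ (U x v) (c • v)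
      rw [hxn, norm_smul, hv1, mul_one] at h3
      have h4 : ‖U x v + c • v‖ ^ 2 = 2 + 2 * ‖c‖ ^ 2 - ‖w‖ ^ 2 := by
        rw [hw]; nlinarith
      rw [h4] at h2
      rw [← hw] at h1
      nlinarith
    by_contra hne
    have hw0 : w ≠ 0 := by
      intro h
      apply hne
      rw [hw] at h
      exact sub_eq_zero.1 h
    have hwn : 0 < ‖w‖ ^ 2 := by
      have := norm_pos_iff.2 hw0
      positivity
    have hb : ∑ n with n ∈ L, (‖⟪U n ξ, v⟫_ℂ‖ ^ 2 * ‖w‖ ^ 2 + ‖⟪U n ξ, w⟫_ℂ‖ ^ 2) ≤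
        ∑ n with n ∈ L, ‖w‖ ^ 2 := by
      apply sum_le_sum; intro n _
      have h1 := bessel_two (u := U n ξ) hv1 horth
      rw [norm_U, hnorm, one_pow, one_mul] at h1
      exact h1
    rw [sum_add_distrib, ← sum_mul, sum_const, nsmul_eq_mul] at hb
    have h5 : t * ‖w‖ ^ 2 + qf L ξ w ≤ (cd L : ℝ) * ‖w‖ ^ 2 := hb
    nlinarith
  -- the commutator subgroup fixes `v`
  let St : Subgroup G :=
    { carrier := {g | U g v = v}
      one_mem' := U_one v
      mul_mem' := by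
        intro x y hx hy
        have hx' : U x v = v := hx
        have hy' : U y v = v := hy
        show U (x * y) v = v
        rw [U_mul, hy', hx']
      inv_mem' := by
        intro x hx
        have hx' : U x v = v := hx
        show U x⁻¹ v = v
        conv_lhs => rw [← hx']
        rw [← U_mul, inv_mul_cancel, U_one] }
  have hSt : ⁅L, L⁆ ≤ St := by
    rw [Subgroup.commutator_le]
    intro x hx y hy
    show U (x * y * x⁻¹ * y⁻¹) v = v
    obtain ⟨cx, hcx⟩ := hscal x hx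
    obtain ⟨cy, hcy⟩ := hscal y hy
    obtain ⟨cz, hcz⟩ := hscal (x⁻¹ * y⁻¹) (L.mul_mem (L.inv_mem hx) (L.inv_mem hy))
    have h1 : U (x * y) v = U (y * x) v := by
      rw [U_mul, U_mul, hcx, hcy, map_smul, map_smul, hcx, hcy, smul_smul, smul_smul, mul_comm]
    have h2 : x * y * x⁻¹ * y⁻¹ = (x * y) * (x⁻¹ * y⁻¹) := by group
    rw [h2, U_mul, hcz, map_smul, h1, ← map_smul, ← hcz, ← U_mul]
    have h3 : y * x * (x⁻¹ * y⁻¹) = 1 := by group
    rw [h3, U_one]
  have hfix : av ⁅L, L⁆ v = (cd ⁅L, L⁆ : ℂ) • v := av_of_fixed _ fun x hx => hSt hx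
  -- so the quadratic form vanishes at `v`
  have hDL : ⁅L, L⁆ ≤ L := by
    rw [Subgroup.commutator_le]
    intro x hx y hy
    exact L.mul_mem (L.mul_mem (L.mul_mem hx hy) (L.inv_mem hx)) (L.inv_mem hy)
  have hz : ∀ n ∈ L, ⟪U n ξ, v⟫_ℂ = 0 := by
    intro n hn
    have hnorm1 : ∀ x ∈ ⁅L, L⁆, n * x * n⁻¹ ∈ ⁅L, L⁆ := by
      intro x hx
      have h1 : n * x * n⁻¹ = (n * x * n⁻¹ * x⁻¹) * x := by group
      rw [h1]
      exact mul_mem (Subgroup.commutator_mem_commutator hn (hDL hx)) hx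
    have hnorm2 : ∀ x ∈ ⁅L, L⁆, n⁻¹ * x * n ∈ ⁅L, L⁆ := by
      intro x hx
      have h1 : n⁻¹ * x * n = (n⁻¹ * x * n⁻¹⁻¹ * x⁻¹) * x := by group
      rw [h1]
      exact mul_mem (Subgroup.commutator_mem_commutator (L.inv_mem hn) (hDL hx)) hx
    have h1 : ⟪U n ξ, av ⁅L, L⁆ v⟫_ℂ = 0 := by
      rw [← av_inner, ← U_av_norm _ hnorm1 hnorm2, h0, map_zero, inner_zero_left]
    rw [hfix, inner_smul_right] at h1
    rcases mul_eq_zero.1 h1 with h2 | h2
    · have := cd_pos ⁅L, L⁆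
      norm_cast at h2
      omega
    · exact h2
  have ht0 : t = 0 := by
    rw [ht]
    unfold qf
    apply sum_eq_zero
    intro n hn
    rw [hz n (mem_filter.1 hn).2]
    simp
  have := cd_pos L
  have h1 : (0 : ℝ) < cd L := by exact_mod_cast this
  linarith

open Classical in
/-- **The dichotomy, mean version.** -/
theorem or_half' {α : G → ℂ} (hα : IsChr α) {c : G → ℝ} (hc : ∀ g, 0 ≤ c g) (N : Subgroup G)
    [hN : N.Normal] (L : Subgroup G) (hLN : L ≤ N) (hn : ∀ n ∈ N, ∀ x ∈ L, n * x * n⁻¹ ∈ L)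
    (hD : ∃ x ∈ L, ∃ y ∈ L, ‖α (x * y * x⁻¹ * y⁻¹)‖ ≠ 1) :
    (∃ H : Subgroup G, H ≠ ⊤ ∧ ∑ g with g ∉ H, c g ≤ ∑ g, c g * (1 - ‖α g‖)) ∨
      ∑ n with n ∈ L, ‖α n‖ ^ 2 ≤ (cd L : ℝ) / 2 := by
  obtain ⟨ξ, hξ⟩ := hα.rep
  set D := ⁅L, L⁆ with hDdef
  have hDL : D ≤ L := by
    rw [hDdef, Subgroup.commutator_le]
    intro x hx y hy
    exact L.mul_mem (L.mul_mem (L.mul_mem hx hy) (L.inv_mem hx)) (L.inv_mem hy)
  have hcjL : ∀ n ∈ N, cj n L ≤ L := by
    intro n hnN x hx
    rw [mem_cj] at hx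
    have := hn n hnN _ hx
    have h2 : n * (n⁻¹ * x * n) * n⁻¹ = x := by group
    rwa [h2] at this
  have hcjD : ∀ n ∈ N, cj n D ≤ D := fun n hnN => cj_comm_le (hcjL n hnN)
  -- a maximal set of conjugates
  obtain ⟨T, hT, hmax⟩ := exists_max_image
    ((univ : Finset (Finset G)).filter fun T => sa α (XT D T) ≠ 0) (fun T => cd (XT D T))
    ⟨∅, mem_filter.2 ⟨mem_univ _, by
      rw [XT_empty]
      unfold sa
      have : (univ.filter fun x : G => x ∈ (⊥ : Subgroup G)) = {1} := by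
        ext x; simp [Subgroup.mem_bot]
      rw [this]
      simp [hα.one]⟩⟩
  have hT0 : sa α (XT D T) ≠ 0 := (mem_filter.1 hT).2
  have hmax' : ∀ T' : Finset G, sa α (XT D T') ≠ 0 → cd (XT D T') ≤ cd (XT D T) := fun T' h =>
    hmax T' (mem_filter.2 ⟨mem_univ _, h⟩)
  by_cases hnormal : ∀ g, cj g (XT D T) = XT D T
  · right
    have hone : ∀ g ∈ XT D T, α g = 1 := fun g hg => one_of_normal hα _ hnormal hT0 hg
    obtain ⟨x, hx, y, hy, hxy⟩ := hD
    have hxyD : x * y * x⁻¹ * y⁻¹ ∈ D := Subgroup.commutator_mem_commutator hx hy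
    have hTe : T = ∅ := by
      by_contra hne
      obtain ⟨z, hz⟩ := nonempty_iff_ne_empty.2 hne
      have h1 : z * (x * y * x⁻¹ * y⁻¹) * z⁻¹ ∈ XT D T := le_XT hz (conj_mem_cj hxyD)
      have h2 := hone _ h1
      rw [hα.cls] at h2
      apply hxy
      rw [h2, norm_one]
    apply half' hα hξ L
    by_cases hs : sa α D = 0
    · exact norm_av hξ D hs
    · exfalso
      have h1 := hmax' {1} (by rw [XT_one]; exact hs)
      rw [XT_one, hTe, XT_empty] at h1
      have h2 : (⊥ : Subgroup G) = D := eq_of_cd_le bot_le h1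
      rw [← h2, Subgroup.mem_bot] at hxyD
      apply hxy
      rw [hxyD, hα.one, norm_one]
  · left
    obtain ⟨y, hy⟩ := imp hα hξ hc (XT D T) hT0 (by
      intro y y' hyy
      have hcdY : cd (cj y (XT D T)) = cd (XT D T) := cd_cj _ _
      have hcdY' : cd (cj y' (XT D T)) = cd (XT D T) := cd_cj _ _
      have hW : sa α (cj y (XT D T) ⊔ cj y' (XT D T)) = 0 := by
        by_contra h
        have h1 : cd (cj y (XT D T) ⊔ cj y' (XT D T)) ≤ cd (XT D T) := by
          rw [cj_XT, cj_XT, ← XT_union] at h ⊢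
          exact hmax' _ h
        have h2 : cj y (XT D T) = cj y (XT D T) ⊔ cj y' (XT D T) :=
          eq_of_cd_le le_sup_left (by rw [hcdY]; exact h1)
        have h3 : cj y' (XT D T) = cj y (XT D T) ⊔ cj y' (XT D T) :=
          eq_of_cd_le le_sup_right (by rw [hcdY']; exact h1)
        exact hyy (h2.trans h3.symm)
      apply av_av_eq_zero _ (norm_av hξ _ hW)
      intro z hz
      have hzN : z ∈ N := by
        rw [cj_XT] at hz
        exact XT_le (hDL.trans hLN) _ hz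
      apply eq_of_cd_le
      · rw [cj_XT y]
        exact cj_XT_le hcjD _ hzN
      · rw [cd_cj z])
    refine ⟨Hy y (XT D T), ?_, hy⟩
    intro htop
    apply hnormal
    have hall : ∀ g, cj g (cj y (XT D T)) = cj y (XT D T) := by
      intro g
      have : g ∈ Hy y (XT D T) := by rw [htop]; trivial
      exact this
    have h1 : XT D T = cj y (XT D T) := by
      have := hall y⁻¹
      rw [← cj_mul, inv_mul_cancel, cj_one] at this
      exact this
    intro g
    have := hall g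
    rw [← h1] at this
    exact this

end Vale.Agent.P318.R2.H378
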