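import Vale.Agent.P318.R2.H378.SlTwo
import Vale.Agent.P318.R2.H924.GapTwo

/-!
# Character gap of `PSL (n, F)`, degree at least three
-/

namespace Vale.Agent.P318.R2.H378

/-- **`PSL (n, F)` has character gap `1/32`, for every degree at least three.** -/
theorem gap_psl {n F : Type*} [Fintype n] [DecidableEq n] [Field F] [Finite F]
    (hn : 3 ≤ Fintype.card n) :
    R2.H678.Gap (Matrix.ProjectiveSpecialLinearGroup n F) (1 / 32) := by
  classical
  have := Fintype.ofFinite F
  have hfin : Finite (Matrix.ProjectiveSpecialLinearGroup n F) := inferInstance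
  have h := R2.H924.gap_of_two (m := 4) (by norm_num) (two_psl (n := n) (F := F) hn)
  norm_num at h
  exact h

end Vale.Agent.P318.R2.H378
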