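import Vale.Agent.P318.H867.Fourier

/-! Averaging a feasible solution over left and right translations of a finite group, and splitting
it into the part on cosets of the commutator subgroup and the rest. -/

open Finset
open scoped ComplexConjugate

set_option linter.unusedSectionVars false

namespace Vale.Agent.P318.R2.H378

open Vale.Agent.P318.H867

section fib

variable {G : Type*} [Group G] [Fintype G] {Γ : Type*} [AddCommGroup Γ] [Fintype Γ]
  [DecidableEq Γ]

/-- the mean of `f` over a fibre -/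
noncomputable def bar (p : G → Γ) (f : G → ℝ) (z : Γ) : ℝ :=
  (∑ x with p x = z, f x) * (Fintype.card Γ / Fintype.card G)

lemma fib_sum (p : G → Γ) (hp : ∀ g h, p (g * h) = p g + p h) (a : Γ) (g : G) (f : G → ℝ) :
    ∑ x with p x = a, f (x * g) = ∑ x with p x = a + p g, f x := by
  refine Finset.sum_bij' (fun x _ => x * g) (fun x _ => x * g⁻¹) ?_ ?_ ?_ ?_ ?_
  · intro x hx
    rw [mem_filter] at hx ⊢
    exact ⟨mem_univ _, by rw [hp, hx.2]⟩
  · intro x hx
    rw [mem_filter] at hx ⊢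
    refine ⟨mem_univ _, ?_⟩
    have h1 : p (x * g⁻¹) + p g = p x := by rw [← hp]; simp
    rw [hx.2] at h1
    exact add_right_cancel h1
  · intro x _; simp
  · intro x _; simp
  · intro x _; rfl

lemma fib_card (p : G → Γ) (hp : ∀ g h, p (g * h) = p g + p h) (hsurj : Function.Surjective p)
    (a : Γ) : ((univ.filter fun x => p x = a).card : ℝ) * Fintype.card Γ = Fintype.card G := by
  have h1 : ∀ b : Γ, ((univ.filter fun x => p x = a).card : ℝ) =
      ((univ.filter fun x => p x = b).card : ℝ) := by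
    intro b
    obtain ⟨g, hg⟩ := hsurj (b - a)
    have := fib_sum p hp a g (fun _ => (1 : ℝ))
    rw [hg] at this
    simpa using this
  have h2 : (Fintype.card G : ℝ) = ∑ b : Γ, ((univ.filter fun x => p x = b).card : ℝ) := by
    have := Finset.card_eq_sum_card_fiberwise (f := p) (s := (univ : Finset G))
      (t := (univ : Finset Γ)) (fun x _ => mem_univ _)
    rw [card_univ] at this
    exact_mod_cast this
  rw [h2]
  rw [Finset.sum_congr rfl (fun b _ => (h1 b).symm)]
  simp [mul_comm]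

lemma sum_comp_p (p : G → Γ) (hp : ∀ g h, p (g * h) = p g + p h)
    (hsurj : Function.Surjective p) (u : Γ → ℝ) :
    ∑ x, u (p x) = (Fintype.card G / Fintype.card Γ : ℝ) * ∑ z, u z := by
  have hΓ : (Fintype.card Γ : ℝ) ≠ 0 := by
    have : 0 < Fintype.card Γ := Fintype.card_pos_iff.2 ⟨0⟩
    positivity
  rw [← Finset.sum_fiberwise (s := univ) (g := p) (f := fun x => u (p x)), mul_sum]
  apply sum_congr rfl; intro z _
  have h1 : ∑ x with p x = z, u (p x) = ((univ.filter fun x => p x = z).card : ℝ) * u z := by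
    rw [Finset.sum_congr rfl (g := fun _ => u z)]
    · simp
    · intro x hx
      rw [(mem_filter.1 hx).2]
  rw [h1, ← fib_card p hp hsurj z]
  field_simp

lemma sum_fib_dev (p : G → Γ) (hp : ∀ g h, p (g * h) = p g + p h)
    (hsurj : Function.Surjective p) (f : G → ℝ) (z : Γ) :
    ∑ x with p x = z, (f x - bar p f (p x)) = 0 := by
  have hΓ : (Fintype.card Γ : ℝ) ≠ 0 := by
    have : 0 < Fintype.card Γ := Fintype.card_pos_iff.2 ⟨0⟩
    positivity
  have hG : (Fintype.card G : ℝ) ≠ 0 := by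
    have := Fintype.card_pos (α := G); positivity
  have h1 : ∑ x with p x = z, bar p f (p x) =
      ((univ.filter fun x => p x = z).card : ℝ) * bar p f z := by
    rw [Finset.sum_congr rfl (g := fun _ => bar p f z)]
    · simp
    · intro x hx
      rw [(mem_filter.1 hx).2]
  rw [sum_sub_distrib, h1]
  have h2 := fib_card p hp hsurj z
  unfold bar
  have h3 : ((univ.filter fun x => p x = z).card : ℝ) *
      ((∑ x with p x = z, f x) * (Fintype.card Γ / Fintype.card G)) =
      (∑ x with p x = z, f x) * ((((univ.filter fun x => p x = z).card : ℝ) * Fintype.card Γ) /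
        Fintype.card G) := by ring
  rw [h3, h2, div_self hG]
  ring

/-- the cross term vanishes -/
lemma split_sq (p : G → Γ) (hp : ∀ g h, p (g * h) = p g + p h)
    (hsurj : Function.Surjective p) (f : G → ℝ) (g : G) :
    ∑ x, (f (x * g) - f x) ^ 2 =
      (Fintype.card G / Fintype.card Γ : ℝ) * ∑ z, (bar p f (z + p g) - bar p f z) ^ 2 +
      ∑ x, ((f (x * g) - bar p f (p (x * g))) - (f x - bar p f (p x))) ^ 2 := by
  rw [← sum_comp_p p hp hsurj (fun z => (bar p f (z + p g) - bar p f z) ^ 2)]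
  have hcross : ∑ x, (bar p f (p x + p g) - bar p f (p x)) *
      ((f (x * g) - bar p f (p (x * g))) - (f x - bar p f (p x))) = 0 := by
    rw [← Finset.sum_fiberwise (s := univ) (g := p)]
    apply sum_eq_zero
    intro z _
    have h1 : ∑ x with p x = z, (bar p f (p x + p g) - bar p f (p x)) *
        ((f (x * g) - bar p f (p (x * g))) - (f x - bar p f (p x))) =
        (bar p f (z + p g) - bar p f z) *
          ∑ x with p x = z, ((f (x * g) - bar p f (p (x * g))) - (f x - bar p f (p x))) := by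
      rw [mul_sum]
      apply sum_congr rfl
      intro x hx
      rw [(mem_filter.1 hx).2]
    rw [h1, sum_sub_distrib, sum_fib_dev p hp hsurj f z,
      fib_sum p hp z g (fun x => f x - bar p f (p x)), sum_fib_dev p hp hsurj f (z + p g)]
    ring
  have h2 : ∀ x, (f (x * g) - f x) ^ 2 = (bar p f (p x + p g) - bar p f (p x)) ^ 2 +
      ((f (x * g) - bar p f (p (x * g))) - (f x - bar p f (p x))) ^ 2 +
      2 * ((bar p f (p x + p g) - bar p f (p x)) *
      ((f (x * g) - bar p f (p (x * g))) - (f x - bar p f (p x)))) := by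
    intro x
    rw [hp]
    ring
  simp_rw [h2, sum_add_distrib, ← mul_sum]
  rw [hcross]
  ring

lemma sum_all_sq (f : G → ℝ) (h0 : ∑ x, f x = 0) :
    ∑ g, ∑ x, (f (x * g) - f x) ^ 2 = 2 * Fintype.card G * ∑ x, (f x) ^ 2 := by
  rw [sum_comm]
  have h1 : ∀ x, ∑ g, (f (x * g) - f x) ^ 2 = ∑ y, (f y - f x) ^ 2 := fun x =>
    Equiv.sum_comp (Equiv.mulLeft x) (fun y => (f y - f x) ^ 2)
  simp_rw [h1]
  have h2 : ∀ x, ∑ y, (f y - f x) ^ 2 = ∑ y, (f y) ^ 2 + Fintype.card G * (f x) ^ 2 := by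
    intro x
    have : ∀ y, (f y - f x) ^ 2 = (f y) ^ 2 + (f x) ^ 2 - 2 * f x * f y := fun y => by ring
    simp_rw [this, sum_sub_distrib, sum_add_distrib, ← mul_sum, h0]
    simp
  simp_rw [h2, sum_add_distrib, ← mul_sum]
  simp
  ring

end fib

section F

variable {G : Type*} [Group G] [Fintype G] [DecidableEq G]

/-- the two-sided average of `d` -/
def Fd (d : G → G → ℝ) (g : G) : ℝ := ∑ y, ∑ x, d (x * g * y⁻¹) (x * y⁻¹)

lemma Fd_mul_le {d : G → G → ℝ} (h : ∀ i j k, d i k ≤ d i j + d j k) (g k : G) :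
    Fd d (g * k) ≤ Fd d g + Fd d k := by
  unfold Fd
  have h1 : ∀ y, ∑ x, d (x * k * y⁻¹) (x * y⁻¹) = ∑ x, d (x * g * k * y⁻¹) (x * g * y⁻¹) :=
    fun y => (Equiv.sum_comp (Equiv.mulRight g) (fun x => d (x * k * y⁻¹) (x * y⁻¹))).symm
  simp_rw [h1, ← sum_add_distrib]
  apply sum_le_sum; intro y _
  apply sum_le_sum; intro x _
  have := h (x * (g * k) * y⁻¹) (x * g * y⁻¹) (x * y⁻¹)
  rw [← mul_assoc] at this ⊢
  linarith

lemma Fd_inv {d : G → G → ℝ} (h : ∀ i j, d i j = d j i) (g : G) : Fd d g⁻¹ = Fd d g := by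
  unfold Fd
  apply sum_congr rfl; intro y _
  rw [← Equiv.sum_comp (Equiv.mulRight g) (fun x => d (x * g⁻¹ * y⁻¹) (x * y⁻¹))]
  apply sum_congr rfl; intro x _
  simp only [Equiv.coe_mulRight]
  rw [h]
  congr 2
  group

lemma sum_c_Fd {d : G → G → ℝ} (hsym : ∀ i j, d i j = d j i) {c : G → ℝ}
    (hc : ∀ x g, c (x * g * x⁻¹) = c g) :
    ∑ g, c g * Fd d g = Fintype.card G * ∑ i, ∑ j, c (i⁻¹ * j) * d i j := by
  have h1 : ∀ y : G, ∑ g, ∑ x, c g * d (x * g * y⁻¹) (x * y⁻¹) =
      ∑ i, ∑ j, c (i⁻¹ * j) * d i j := by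
    intro y
    rw [sum_comm]
    rw [← Equiv.sum_comp (Equiv.mulRight y⁻¹) (fun i => ∑ j, c (i⁻¹ * j) * d i j)]
    apply sum_congr rfl; intro x _
    simp only [Equiv.coe_mulRight]
    rw [← Equiv.sum_comp ((Equiv.mulLeft x).trans (Equiv.mulRight y⁻¹))
      (fun j => c ((x * y⁻¹)⁻¹ * j) * d (x * y⁻¹) j)]
    apply sum_congr rfl; intro g _
    simp only [Equiv.trans_apply, Equiv.coe_mulRight, Equiv.coe_mulLeft]
    rw [hsym]
    congr 1
    rw [show (x * y⁻¹)⁻¹ * (x * g * y⁻¹) = y * g * y⁻¹ by group]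
    exact (hc y g).symm
  calc ∑ g, c g * Fd d g = ∑ g, ∑ y, ∑ x, c g * d (x * g * y⁻¹) (x * y⁻¹) := by
        unfold Fd
        simp_rw [mul_sum]
    _ = ∑ y : G, ∑ g, ∑ x, c g * d (x * g * y⁻¹) (x * y⁻¹) := sum_comm
    _ = ∑ y : G, ∑ i, ∑ j, c (i⁻¹ * j) * d i j := sum_congr rfl fun y _ => h1 y
    _ = _ := by simp

/-- the coordinate functions -/
noncomputable def hv (v : G → EuclideanSpace ℝ G) (i : G × G) (x : G) : ℝ := v (x * i.1⁻¹) i.2

lemma Fd_eq {d : G → G → ℝ} {v : G → EuclideanSpace ℝ G} (h : ∀ i j, d i j = ‖v i - v j‖ ^ 2)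
    (g : G) : Fd d g = ∑ i, ∑ x, (hv v i (x * g) - hv v i x) ^ 2 := by
  unfold Fd hv
  rw [Fintype.sum_prod_type]
  apply sum_congr rfl; intro y _
  rw [sum_comm]
  apply sum_congr rfl; intro x _
  rw [h, EuclideanSpace.norm_sq_eq]
  simp

end F

theorem avg {G : Type*} [Group G] [Fintype G] [DecidableEq G] [Fintype (commutator G)]
    {d : G → G → ℝ}
    (hd : IsNegTypeSemimetric d) (h1 : (∑ i, ∑ j, d i j) / 2 = 1) :
    ∃ (F : G → ℝ) (h' : G × G → G → ℝ) (A : AddChar (Additive (Abelianization G)) ℂ → ℝ),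
      (∀ g h, F (g * h) ≤ F g + F h) ∧ (∀ g, F g⁻¹ = F g) ∧
      (∀ c : G → ℝ, (∀ x g, c (x * g * x⁻¹) = c g) →
        ∑ g, c g * F g = Fintype.card G * ∑ i, ∑ j, c (i⁻¹ * j) * d i j) ∧
      (∀ χ, 0 ≤ A χ) ∧ (∀ i x, ∑ h : commutator G, h' i (x * h) = 0) ∧
      (∀ g, F g = ∑ χ, A χ * Q χ (Additive.ofMul (Abelianization.of g)) +
        ∑ i, ∑ x, (h' i (x * g) - h' i x) ^ 2) ∧
      (∑ χ ∈ univ.erase 0, A χ + ∑ i, ∑ x, (h' i x) ^ 2 = 1) := by
  classical
  let _ : Fintype (Additive (Abelianization G)) := Fintype.ofFinite _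
  obtain ⟨⟨v, hv'⟩, htri⟩ := hd
  have hsym : ∀ i j, d i j = d j i := fun i j => by rw [hv', hv', norm_sub_rev]
  set Γ := Additive (Abelianization G) with hΓdef
  let p : G → Γ := fun g => Additive.ofMul (Abelianization.of g)
  have hp : ∀ g h, p (g * h) = p g + p h := by
    intro g h
    simp only [p, map_mul, ofMul_mul]
  have hsurj : Function.Surjective p := by
    intro z
    obtain ⟨g, hg⟩ := QuotientGroup.mk_surjective (Additive.toMul z)
    exact ⟨g, by
      change Additive.ofMul (Abelianization.of g) = z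
      have : Abelianization.of g = Additive.toMul z := hg
      rw [this]; rfl⟩
  have hG : (0 : ℝ) < Fintype.card G := by
    have := Fintype.card_pos (α := G); positivity
  have hΓ : (0 : ℝ) < Fintype.card Γ := by
    have : 0 < Fintype.card Γ := Fintype.card_pos_iff.2 ⟨0⟩
    positivity
  set m : ℝ := Fintype.card G / Fintype.card Γ with hm
  have hmpos : 0 < m := by positivity
  let h' : G × G → G → ℝ := fun i x => hv v i x - bar p (hv v i) (p x)
  let A : AddChar Γ ℂ → ℝ := fun χ => m * ∑ i, wt (bar p (hv v i)) χ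
  have hA : ∀ χ, 0 ≤ A χ := fun χ =>
    mul_nonneg hmpos.le (sum_nonneg fun i _ => wt_nonneg _ _)
  have hF : ∀ g, Fd d g = ∑ χ, A χ * Q χ (p g) +
        ∑ i, ∑ x, (h' i (x * g) - h' i x) ^ 2 := by
    intro g
    rw [Fd_eq hv']
    have h2 : ∀ i, ∑ x, (hv v i (x * g) - hv v i x) ^ 2 =
        m * ∑ χ, wt (bar p (hv v i)) χ * Q χ (p g) + ∑ x, (h' i (x * g) - h' i x) ^ 2 := by
      intro i
      rw [split_sq p hp hsurj (hv v i) g, ← sum_shift_sub_sq]
    simp_rw [h2, sum_add_distrib]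
    congr 1
    rw [← mul_sum, sum_comm, mul_sum]
    apply sum_congr rfl; intro χ _
    simp only [A]
    rw [← sum_mul]
    ring
  have hzero : ∀ i, ∑ x, h' i x = 0 := by
    intro i
    rw [← Finset.sum_fiberwise (s := univ) (g := p)]
    exact sum_eq_zero fun z _ => sum_fib_dev p hp hsurj (hv v i) z
  refine ⟨Fd d, h', A, Fd_mul_le htri, Fd_inv hsym, fun c hc => sum_c_Fd hsym hc, hA, ?_, hF, ?_⟩
  · intro i x
    have hmem : ∀ k, k ∈ commutator G ↔ p k = 0 := by
      intro k
      rw [← Abelianization.ker_of, MonoidHom.mem_ker]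
      constructor
      · intro h
        simp only [p, h, ofMul_one]
      · intro h
        exact Additive.ofMul.injective h
    have h2 : ∑ h : commutator G, h' i (x * h) = ∑ y with p y = p x, h' i y := by
      refine Finset.sum_bij (fun h _ => x * (h : G)) ?_ ?_ ?_ ?_
      · intro h _
        rw [mem_filter]
        exact ⟨mem_univ _, by rw [hp, (hmem _).1 h.2, add_zero]⟩
      · intro a _ b _ hab
        exact Subtype.ext (mul_left_cancel hab)
      · intro y hy
        refine ⟨⟨x⁻¹ * y, (hmem _).2 ?_⟩, mem_univ _, by simp⟩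
        rw [hp, (mem_filter.1 hy).2, ← hp, inv_mul_cancel]
        exact (hmem 1).1 (one_mem _)
      · intro h _; rfl
    rw [h2]
    exact sum_fib_dev p hp hsurj (hv v i) (p x)
  · have h2 : ∑ g, Fd d g = 2 * Fintype.card G := by
      have := sum_c_Fd hsym (c := fun _ => 1) (fun _ _ => rfl)
      simp only [one_mul] at this
      rw [this]
      have h3 : ∑ i, ∑ j, d i j = 2 := by linarith
      rw [h3]; ring
    simp_rw [hF, sum_add_distrib] at h2
    have h3 : ∑ g, ∑ χ, A χ * Q χ (p g) = 2 * Fintype.card G * ∑ χ ∈ univ.erase 0, A χ := by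
      rw [sum_comm]
      have h4 : ∀ χ : AddChar Γ ℂ, ∑ g, A χ * Q χ (p g) =
          if χ = 0 then 0 else 2 * Fintype.card G * A χ := by
        intro χ
        rw [← mul_sum, sum_comp_p p hp hsurj (fun z => Q χ z)]
        split_ifs with h0
        · rw [h0]; simp [Q_zero]
        · rw [sum_Q h0]
          field_simp
      simp_rw [h4]
      rw [mul_sum, ← add_sum_erase _ _ (mem_univ (0 : AddChar Γ ℂ)), if_pos rfl, zero_add]
      apply sum_congr rfl; intro χ hχ
      rw [if_neg (ne_of_mem_erase hχ)]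
    have h4 : ∑ g, ∑ i, ∑ x, (h' i (x * g) - h' i x) ^ 2 =
        2 * Fintype.card G * ∑ i, ∑ x, (h' i x) ^ 2 := by
      rw [sum_comm, mul_sum]
      apply sum_congr rfl; intro i _
      exact sum_all_sq (h' i) (hzero i)
    rw [h3, h4, ← mul_add] at h2
    have h5 : (2 * Fintype.card G : ℝ) ≠ 0 := by positivity
    have := mul_left_cancel₀ h5 (h2.trans (mul_one _).symm)
    exact this

end Vale.Agent.P318.R2.H378
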