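import Mathlib

/-!
# A solvable subgroup with few double cosets

`HasBor T r s`: the group `T` has a solvable subgroup of derived length at most `s` with at most
`r` double cosets.
-/

open Finset

set_option linter.all false

namespace Vale.Agent.P318.R2.H378

/-- `T` has a subgroup `B`, solvable of derived length at most `s`, with at most `r` double cosets
`B t B`. -/
def HasBor (T : Type*) [Group T] (r s : ℕ) : Prop :=
  ∃ B : Subgroup T, derivedSeries B s = ⊥ ∧
    ∃ R : Finset T, R.card ≤ r ∧ ∀ g : T, ∃ t ∈ R, ∃ b ∈ B, ∃ b' ∈ B, g = b * t * b'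

variable {T : Type*} [Group T]

/-- **The rank lemma.** -/
theorem rank_lemma [IsSimpleGroup T] {f : T → ℝ} (h0 : ∀ a, 0 ≤ f a) (h1 : f 1 = 0)
    (hm : ∀ a b, f (a * b) ≤ f a + f b) (hi : ∀ a, f a⁻¹ = f a)
    (hc : ∀ x a, f (x * a * x⁻¹) = f a) (B : Subgroup T) {r : ℕ} (R : Finset T)
    (hR : R.card ≤ r) (hcov : ∀ g : T, ∃ t ∈ R, ∃ b ∈ B, ∃ b' ∈ B, g = b * t * b')
    {x : T} (hx : x ≠ 1) (g : T) :
    ∃ u, ∃ b ∈ B, g = u * b ∧ f u ≤ 2 ^ r * f x := by
  classical
  -- the double cosets met by the small elements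
  set D : ℕ → Finset T := fun i => R.filter fun t => ∃ u, f u ≤ 2 ^ i * f x ∧ ∃ b ∈ B, ∃ b' ∈ B,
    t = b * u * b' with hD
  have hmono : ∀ i, D i ⊆ D (i + 1) := by
    intro i t ht
    rw [mem_filter] at ht ⊢
    obtain ⟨ht, u, hu, h⟩ := ht
    refine ⟨ht, u, hu.trans ?_, h⟩
    apply mul_le_mul_of_nonneg_right _ (h0 x)
    exact pow_le_pow_right₀ (by norm_num) (by omega)
  have hex : ∃ i, i < r ∧ D i = D (i + 1) := by
    by_contra hcon
    push Not at hcon
    have hgrow : ∀ i, i ≤ r → i + 1 ≤ (D i).card := by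
      intro i
      induction i with
      | zero =>
        intro _
        obtain ⟨t, ht, b, hb, b', hb', h⟩ := hcov 1
        have : t ∈ D 0 := by
          rw [mem_filter]
          refine ⟨ht, 1, by rw [h1]; have := h0 x; positivity, b⁻¹, B.inv_mem hb, b'⁻¹,
            B.inv_mem hb', ?_⟩
          rw [mul_one]
          have h3 : b⁻¹ * (b * t * b') * b'⁻¹ = t := by group
          rw [← h3, ← h, mul_one]
        have := card_pos.2 ⟨t, this⟩
        omega
      | succ i ih =>
        intro hi'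
        have h2 := ih (by omega)
        have h3 : D i ⊂ D (i + 1) :=
          (hmono i).ssubset_of_ne (hcon i (by omega))
        have := card_lt_card h3
        omega
    have h4 := hgrow r le_rfl
    have h5 : (D r).card ≤ R.card := card_filter_le _ _
    omega
  obtain ⟨i, hir, hi'⟩ := hex
  set δ := 2 ^ i * f x with hδ
  have hδ0 : 0 ≤ δ := by have := h0 x; positivity
  -- the union of the double cosets met
  let P : Subgroup T :=
    { carrier := {g | ∃ u, f u ≤ δ ∧ ∃ b ∈ B, ∃ b' ∈ B, g = b * u * b'}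
      one_mem' := ⟨1, by rw [h1]; exact hδ0, 1, B.one_mem, 1, B.one_mem, by simp⟩
      inv_mem' := by
        rintro _ ⟨u, hu, b, hb, b', hb', rfl⟩
        exact ⟨u⁻¹, by rw [hi]; exact hu, b'⁻¹, B.inv_mem hb', b⁻¹, B.inv_mem hb, by group⟩
      mul_mem' := by
        rintro _ _ ⟨u, hu, b, hb, b', hb', rfl⟩ ⟨v, hv, c, hc', c', hc'', rfl⟩
        obtain ⟨t, ht, d, hd, d', hd', h⟩ := hcov ((b * u * b') * (c * v * c'))
        have h2 : t ∈ D (i + 1) := by
          rw [mem_filter]
          refine ⟨ht, u * ((b' * c) * v * (b' * c)⁻¹), ?_, d⁻¹ * b, B.mul_mem (B.inv_mem hd) hb,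
            b' * c * c' * d'⁻¹, B.mul_mem (B.mul_mem (B.mul_mem hb' hc') hc'') (B.inv_mem hd'), ?_⟩
          · refine (hm _ _).trans ?_
            rw [hc, pow_succ]
            have : 2 ^ i * 2 * f x = δ + δ := by rw [hδ]; ring
            rw [this]
            exact add_le_add hu hv
          · have h3 : d⁻¹ * (d * t * d') * d'⁻¹ = t := by group
            rw [← h3, ← h]
            group
        rw [← hi', mem_filter] at h2
        obtain ⟨-, w, hw, e, he, e', he', h3⟩ := h2
        refine ⟨w, hw, d * e, B.mul_mem hd he, e' * d', B.mul_mem he' hd', ?_⟩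
        rw [h, h3]
        group }
  have hsub : ∀ y, f y ≤ δ → y ∈ P := fun y hy =>
    ⟨y, hy, 1, B.one_mem, 1, B.one_mem, by simp⟩
  have hxδ : f x ≤ δ := by
    rw [hδ]
    have : (1 : ℝ) ≤ 2 ^ i := one_le_pow₀ (by norm_num)
    nlinarith [h0 x]
  have htop : P = ⊤ := by
    have h2 : Subgroup.normalClosure {x} ≤ P := by
      rw [Subgroup.normalClosure, Subgroup.closure_le]
      intro y hy
      obtain ⟨z, hz, hzy⟩ := Group.mem_conjugatesOfSet_iff.1 hy
      rw [Set.mem_singleton_iff] at hz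
      subst hz
      obtain ⟨c, rfl⟩ := isConj_iff.1 hzy
      exact hsub _ (by rw [hc]; exact hxδ)
    rcases IsSimpleGroup.eq_bot_or_eq_top_of_normal _
      (Subgroup.normalClosure_normal (s := {x})) with h3 | h3
    · exfalso
      apply hx
      have : x ∈ Subgroup.normalClosure {x} :=
        Subgroup.subset_normalClosure (Set.mem_singleton x)
      rw [h3, Subgroup.mem_bot] at this
      exact this
    · rw [h3] at h2
      exact top_le_iff.1 h2
  obtain ⟨u, hu, b, hb, b', hb', h⟩ : g ∈ P := by rw [htop]; trivial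
  refine ⟨b * u * b⁻¹, b * b', B.mul_mem hb hb', by rw [h]; group, ?_⟩
  rw [hc]
  refine hu.trans (mul_le_mul_of_nonneg_right ?_ (h0 x))
  exact pow_le_pow_right₀ (by norm_num) (by omega)

end Vale.Agent.P318.R2.H378
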