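import Vale.Agent.P318.R2.H378.BorLaw
import Vale.Agent.P318.R2.H378.BorRank
import Vale.Agent.P318.R2.H678.GapDef
import Vale.Agent.P318.R2.H924.TwoOf

/-!
# Character gap from a solvable subgroup with few double cosets
-/

open Finset
open scoped ComplexConjugate InnerProductSpace commutatorElement

set_option linter.all false

namespace Vale.Agent.P318.R2.H378

open Vale.Agent.P318.R2.H356

section solv

variable {T : Type*} [Group T]

/-- iterated commutators are small when the group is covered by small translates of a subgroup -/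
theorem comm_small {f : T → ℝ} (h0 : ∀ a, 0 ≤ f a)
    (hm : ∀ a b, f (a * b) ≤ f a + f b) (hi : ∀ a, f a⁻¹ = f a)
    (hc : ∀ x a, f (x * a * x⁻¹) = f a) (B : Subgroup T) {δ : ℝ}
    (hδ : ∀ g, ∃ u, ∃ b ∈ B, g = u * b ∧ f u ≤ δ) (s : ℕ) :
    ∀ g, IsE s g → ∃ u : T, ∃ b : B, b ∈ derivedSeries B s ∧ g = u * b ∧ f u ≤ 4 ^ s * δ := by
  induction s with
  | zero =>
    intro g _
    obtain ⟨u, b, hb, hg, hu⟩ := hδ g
    exact ⟨u, ⟨b, hb⟩, by simp, hg, by simpa using hu⟩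
  | succ s ih =>
    rintro g ⟨g1, g2, h1, h2, rfl⟩
    obtain ⟨u1, b1, hb1, rfl, hu1⟩ := ih g1 h1
    obtain ⟨u2, b2, hb2, rfl, hu2⟩ := ih g2 h2
    refine ⟨u1 * ((b1 : T) * u2 * (b1 : T)⁻¹) *
      (((b1 : T) * b2 * (b1 : T)⁻¹) * u1⁻¹ * ((b1 : T) * b2 * (b1 : T)⁻¹)⁻¹) *
      (((b1 : T) * b2 * (b1 : T)⁻¹ * (b2 : T)⁻¹) * u2⁻¹ *
        ((b1 : T) * b2 * (b1 : T)⁻¹ * (b2 : T)⁻¹)⁻¹), ⁅b1, b2⁆, ?_, ?_, ?_⟩
    · rw [derivedSeries_succ]
      exact Subgroup.commutator_mem_commutator hb1 hb2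
    · rw [commutatorElement_def]
      push_cast
      group
    · have k1 := hm (u1 * ((b1 : T) * u2 * (b1 : T)⁻¹) *
        (((b1 : T) * b2 * (b1 : T)⁻¹) * u1⁻¹ * ((b1 : T) * b2 * (b1 : T)⁻¹)⁻¹))
        (((b1 : T) * b2 * (b1 : T)⁻¹ * (b2 : T)⁻¹) * u2⁻¹ *
          ((b1 : T) * b2 * (b1 : T)⁻¹ * (b2 : T)⁻¹)⁻¹)
      have k2 := hm (u1 * ((b1 : T) * u2 * (b1 : T)⁻¹))
        (((b1 : T) * b2 * (b1 : T)⁻¹) * u1⁻¹ * ((b1 : T) * b2 * (b1 : T)⁻¹)⁻¹)
      have k3 := hm u1 ((b1 : T) * u2 * (b1 : T)⁻¹)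
      rw [hc] at k1 k2 k3
      rw [hi] at k1 k2
      have k4 : (4 : ℝ) ^ (s + 1) * δ = 4 ^ s * δ + 4 ^ s * δ + (4 ^ s * δ) + 4 ^ s * δ := by
        rw [pow_succ]; ring
      rw [k4]
      linarith

end solv

variable {G : Type*} [Group G] [Fintype G]

lemma perfect_of_simple [IsSimpleGroup G] (hnc : ∃ a b : G, a * b ≠ b * a) :
    commutator G = ⊤ := by
  rcases IsSimpleGroup.eq_bot_or_eq_top_of_normal (commutator G) inferInstance with h | h
  · exfalso
    obtain ⟨a, b, hab⟩ := hnc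
    apply hab
    have h1 : ⁅a, b⁆ ∈ commutator G :=
      Subgroup.commutator_mem_commutator (Subgroup.mem_top a) (Subgroup.mem_top b)
    rw [h, Subgroup.mem_bot] at h1
    exact commutatorElement_eq_one_iff_mul_comm.1 h1
  · exact h

/-- **The character ratios of a simple group with a solvable subgroup of few double cosets.** -/
theorem chr_bor [IsSimpleGroup G] (hnc : ∃ a b : G, a * b ≠ b * a) {r s : ℕ}
    (h : HasBor G r s) {x : G} (hx : x ≠ 1) {α : G → ℂ} (hα : IsChr α)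
    (hnl : ∃ g, ‖α g‖ ≠ 1) : (α x).re ≤ 1 - eps s / (16 ^ s * 4 ^ r) := by
  classical
  obtain ⟨B, hB, R, hR, hcov⟩ := h
  obtain ⟨ξ, hξ⟩ := hα.rep
  have hn := norm_xi hα.one hξ
  set f : G → ℝ := fun g => ‖U g ξ - ξ‖ with hf
  have hf2 : ∀ g, f g ^ 2 = 2 - 2 * (α g).re := by
    intro g
    have h1 := norm_sub_sq (𝕜 := ℂ) (U g ξ) ξ
    rw [norm_U, hn] at h1
    have h2 : RCLike.re (⟪U g ξ, ξ⟫_ℂ) = (α g).re := by
      rw [hξ, ← inner_conj_symm, RCLike.conj_re]
      rfl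
    rw [h2] at h1
    simp only [hf]
    rw [h1]; ring
  have h0 : ∀ a, 0 ≤ f a := fun a => norm_nonneg _
  have h1 : f 1 = 0 := by simp [hf, U_one]
  have hm : ∀ a b, f (a * b) ≤ f a + f b := by
    intro a b
    have e : U (a * b) ξ - ξ = U a (U b ξ - ξ) + (U a ξ - ξ) := by
      rw [U_mul, map_sub]; abel
    calc f (a * b) = ‖U a (U b ξ - ξ) + (U a ξ - ξ)‖ := by simp only [hf]; rw [e]
      _ ≤ ‖U a (U b ξ - ξ)‖ + ‖U a ξ - ξ‖ := norm_add_le _ _
      _ = f a + f b := by rw [norm_U]; simp only [hf]; ring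
  have hcl : ∀ x a, f (x * a * x⁻¹) = f a := by
    intro x a
    have e : f (x * a * x⁻¹) ^ 2 = f a ^ 2 := by rw [hf2, hf2, hα.cls]
    exact (pow_left_inj₀ (h0 _) (h0 _) two_ne_zero).1 e
  have hi : ∀ a, f a⁻¹ = f a := by
    intro a
    have e : f a⁻¹ ^ 2 = f a ^ 2 := by rw [hf2, hf2, hα.inv, Complex.conj_re]
    exact (pow_left_inj₀ (h0 _) (h0 _) two_ne_zero).1 e
  set δ := 2 ^ r * f x with hδ
  have hδ0 : 0 ≤ δ := by have := h0 x; positivity
  have hcover : ∀ g, ∃ u, ∃ b ∈ B, g = u * b ∧ f u ≤ δ := fun g =>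
    rank_lemma h0 h1 hm hi hcl B R hR hcov hx g
  have hsmall : ∀ g, IsE s g → f g ≤ 4 ^ s * δ := by
    intro g hg
    obtain ⟨u, b, hb, hgu, hu⟩ := comm_small h0 hm hi hcl B hcover s g hg
    rw [hB, Subgroup.mem_bot] at hb
    rw [hgu, hb]
    simpa using hu
  have hlaw := law_bound (perfect_of_simple hnc) s α hα hnl
  have h2 : ∑ g : G, law s g * (1 - (4 ^ s * δ) ^ 2 / 2) ≤ ∑ g : G, law s g * (α g).re := by
    apply sum_le_sum
    intro g _
    by_cases hg : law s g = 0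
    · rw [hg, zero_mul, zero_mul]
    · apply mul_le_mul_of_nonneg_left _ (law_nonneg s g)
      have h3 := hsmall g (law_ne s g hg)
      have h4 : f g ^ 2 ≤ (4 ^ s * δ) ^ 2 := pow_le_pow_left₀ (h0 g) h3 2
      rw [hf2] at h4
      linarith
  rw [← sum_mul, law_total, one_mul] at h2
  have h5 : (4 ^ s * δ) ^ 2 = 16 ^ s * 4 ^ r * (2 - 2 * (α x).re) := by
    rw [← hf2, hδ, mul_pow, mul_pow, ← pow_mul, ← pow_mul, mul_comm s 2, mul_comm r 2, pow_mul,
      pow_mul]
    norm_num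
    ring
  rw [h5] at h2
  have h6 : eps s ≤ 16 ^ s * 4 ^ r * (1 - (α x).re) := by linarith
  have h7 : (0 : ℝ) < 16 ^ s * 4 ^ r := by positivity
  have h8 : eps s / (16 ^ s * 4 ^ r) ≤ 1 - (α x).re := by
    rw [div_le_iff₀ h7]; linarith
  linarith

/-- from irreducible characters to representations without invariant vectors -/
theorem gap_of_chr (hp : commutator G = ⊤) {κ : ℝ}
    (h : ∀ α : G → ℂ, IsChr α → (∃ g, ‖α g‖ ≠ 1) → ∀ x, x ≠ 1 → (α x).re ≤ 1 - κ) :
    R2.H678.Gap G κ := by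
  classical
  intro d ρ hρ x hx
  have hN : (0 : ℝ) < Fintype.card G := by exact_mod_cast Fintype.card_pos
  obtain ⟨fl, -, hfl, -, hfi, -⟩ := R2.H924.exists_len ρ
  have htr : (Matrix.trace (ρ x⁻¹)).re = (Matrix.trace (ρ x)).re := by
    have h1 := hfl x
    have h2 := hfl x⁻¹
    rw [hfi] at h2
    linarith
  have htrc : ∀ y z, Matrix.trace (ρ (y * z * y⁻¹)) = Matrix.trace (ρ z) := by
    intro y z
    rw [map_mul, Matrix.trace_mul_comm, ← map_mul]
    congr 2
    group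
  -- the class average
  set c : G → ℝ := fun g => (2 * (Fintype.card G : ℝ))⁻¹ *
    ∑ y, ((if y * x * y⁻¹ = g then 1 else 0) + (if y * x⁻¹ * y⁻¹ = g then 1 else 0)) with hc
  have hcF : ∀ F : G → ℝ, ∑ g, c g * F g = (2 * (Fintype.card G : ℝ))⁻¹ *
      ∑ y, (F (y * x * y⁻¹) + F (y * x⁻¹ * y⁻¹)) := by
    intro F
    simp only [hc]
    simp_rw [mul_assoc _ (∑ y, _) _]
    rw [← mul_sum]
    congr 1
    simp_rw [sum_mul]
    rw [sum_comm]
    apply sum_congr rfl; intro y _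
    simp_rw [add_mul, ite_mul, one_mul, zero_mul]
    rw [sum_add_distrib, sum_ite_eq, sum_ite_eq]
    simp
  have hs : ∀ g, c g⁻¹ = c g := by
    intro g
    simp only [hc]
    congr 1
    apply sum_congr rfl; intro y _
    have e1 : (y * x * y⁻¹ = g⁻¹) ↔ (y * x⁻¹ * y⁻¹ = g) := by
      rw [← inv_inj, inv_inv]
      have : (y * x * y⁻¹)⁻¹ = y * x⁻¹ * y⁻¹ := by group
      rw [this]
    have e2 : (y * x⁻¹ * y⁻¹ = g⁻¹) ↔ (y * x * y⁻¹ = g) := by
      rw [← inv_inj, inv_inv]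
      have : (y * x⁻¹ * y⁻¹)⁻¹ = y * x * y⁻¹ := by group
      rw [this]
    simp only [e1, e2]
    exact add_comm _ _
  have hcl : ∀ z g, c (z * g * z⁻¹) = c g := by
    intro z g
    simp only [hc]
    congr 1
    refine (Fintype.sum_equiv (Equiv.mulLeft z) _ _ (fun y => ?_)).symm
    have e : ∀ w : G, (Equiv.mulLeft z y * w * (Equiv.mulLeft z y)⁻¹ = z * g * z⁻¹) ↔
        (y * w * y⁻¹ = g) := by
      intro w
      have e1 : Equiv.mulLeft z y * w * (Equiv.mulLeft z y)⁻¹ = z * (y * w * y⁻¹) * z⁻¹ := by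
        simp only [Equiv.coe_mulLeft]; group
      rw [e1]
      constructor
      · intro h
        exact mul_left_cancel (mul_right_cancel h)
      · intro h; rw [h]
    simp only [e]
  have hc1 : ∑ g, c g = 1 := by
    have := hcF (fun _ => 1)
    simp only [mul_one] at this
    rw [this]
    simp
    field_simp
    norm_num
  have he : ∀ α : G → ℂ, IsChr α → (∃ g, ‖α g‖ ≠ 1) → ∑ g, c g * (α g).re ≤ 1 - κ := by
    intro α hα hnl
    rw [hcF (fun g => (α g).re)]
    simp_rw [hα.cls, hα.inv, Complex.conj_re]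
    rw [sum_const, card_univ, nsmul_eq_mul]
    have h2 := h α hα hnl x hx
    have h3 : (2 * (Fintype.card G : ℝ))⁻¹ * ((Fintype.card G : ℝ) * ((α x).re + (α x).re)) =
        (α x).re := by
      field_simp
      ring
    rw [h3]; exact h2
  obtain ⟨S, S', hS, hS', hU⟩ := R2.H924.exists_unitary ρ
  set V : G → Matrix (Fin d) (Fin d) ℂ := fun y => S * ρ y * S' with hV
  have hVm : ∀ a b, V (a * b) = V a * V b := by
    intro a b
    simp only [hV, map_mul]
    calc S * (ρ a * ρ b) * S' = S * ρ a * 1 * (ρ b * S') := by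
          rw [Matrix.mul_one]; simp only [Matrix.mul_assoc]
      _ = S * ρ a * S' * (S * ρ b * S') := by
          rw [← hS']; simp only [Matrix.mul_assoc]
  have hVt : ∀ a, Matrix.trace (V a) = Matrix.trace (ρ a) := by
    intro a
    simp only [hV]
    rw [Matrix.trace_mul_comm, ← Matrix.mul_assoc, hS', Matrix.one_mul]
  have key := kernel_bound hp hs hcl he (fun y (i : Fin d × Fin d) => V y i.1 i.2)
    (fun g => (Matrix.trace (ρ g)).re) (m := 0) (by
      intro y g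
      have e : ∑ i : Fin d × Fin d, conj (V y i.1 i.2) * V (y * g) i.1 i.2 =
          Matrix.trace ((V y).conjTranspose * V (y * g)) := by
        rw [Matrix.trace, Fintype.sum_prod_type, sum_comm]
        apply sum_congr rfl; intro j _
        rw [Matrix.diag_apply, Matrix.mul_apply]
        apply sum_congr rfl; intro i _
        rw [Matrix.conjTranspose_apply]
        rfl
      rw [← Complex.re_sum, e, hVm, ← Matrix.mul_assoc, hU y, Matrix.one_mul, hVt]) (by
      rw [mul_zero, ← Complex.re_sum, R2.H924.sum_trace_eq_zero ρ hρ, Complex.zero_re]) hc1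
  rw [hcF (fun g => (Matrix.trace (ρ g)).re)] at key
  simp_rw [htrc, htr] at key
  rw [sum_const, card_univ, nsmul_eq_mul, map_one, Matrix.trace_one, Fintype.card_fin,
    Complex.natCast_re] at key
  have h3 : (2 * (Fintype.card G : ℝ))⁻¹ * ((Fintype.card G : ℝ) *
      ((Matrix.trace (ρ x)).re + (Matrix.trace (ρ x)).re)) = (Matrix.trace (ρ x)).re := by
    field_simp
    ring
  rw [h3] at key
  linarith

/-- **Character gap from a solvable subgroup with few double cosets.** -/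
theorem gap_bor {T : Type*} [Group T] [Finite T] [IsSimpleGroup T]
    (hnc : ∃ a b : T, a * b ≠ b * a) {r s : ℕ} (h : HasBor T r s) :
    R2.H678.Gap T ((1 / 2) ^ (2 ^ s - 1) / (16 ^ s * 4 ^ r)) := by
  cases nonempty_fintype T
  rw [← eps_eq]
  exact gap_of_chr (perfect_of_simple hnc) fun α hα hnl x hx => chr_bor hnc h hx hα hnl

end Vale.Agent.P318.R2.H378
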