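import Vale.Agent.P318.R2.H378.BorSpec

/-!
# The law of an iterated commutator in a perfect finite group
-/

open Finset
open scoped ComplexConjugate InnerProductSpace

set_option linter.all false

namespace Vale.Agent.P318.R2.H378

open Vale.Agent.P318.R2.H356

variable {G : Type*} [Group G] [Fintype G]

open Classical in
/-- the law of an iterated commutator of independent uniform elements -/
noncomputable def law : ℕ → G → ℝ
  | 0, _ => (Fintype.card G : ℝ)⁻¹
  | s + 1, g => ∑ a, ∑ b, if a * b * a⁻¹ * b⁻¹ = g then law s a * law s b else 0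

/-- values of iterated commutators -/
def IsE : ℕ → G → Prop
  | 0, _ => True
  | s + 1, g => ∃ a b, IsE s a ∧ IsE s b ∧ a * b * a⁻¹ * b⁻¹ = g

lemma law_sum (s : ℕ) (F : G → ℝ) :
    ∑ g, law (s + 1) g * F g = ∑ a, law s a * ∑ b, law s b * F (a * b * a⁻¹ * b⁻¹) := by
  classical
  have h1 : ∀ g : G, law (s + 1) g * F g =
      ∑ a, ∑ b, if a * b * a⁻¹ * b⁻¹ = g then law s a * law s b * F g else 0 := by
    intro g
    rw [law, sum_mul]
    apply sum_congr rfl; intro a _
    rw [sum_mul]
    apply sum_congr rfl; intro b _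
    split_ifs <;> simp
  simp_rw [h1]
  rw [sum_comm]
  apply sum_congr rfl; intro a _
  rw [sum_comm, mul_sum]
  apply sum_congr rfl; intro b _
  rw [sum_ite_eq]
  simp only [mem_univ, if_true]
  ring

lemma law_nonneg (s : ℕ) : ∀ g : G, 0 ≤ law s g := by
  induction s with
  | zero => intro g; rw [law]; positivity
  | succ s ih =>
    intro g
    rw [law]
    refine sum_nonneg fun a _ => sum_nonneg fun b _ => ?_
    split_ifs
    · exact mul_nonneg (ih a) (ih b)
    · exact le_rfl

lemma law_total (s : ℕ) : ∑ g : G, law s g = 1 := by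
  induction s with
  | zero =>
    simp_rw [law]
    rw [sum_const, card_univ, nsmul_eq_mul, mul_inv_cancel₀]
    exact_mod_cast Fintype.card_ne_zero
  | succ s ih =>
    have h := law_sum s (fun _ : G => (1 : ℝ))
    simp only [mul_one] at h
    rw [h]
    simp_rw [ih, mul_one]
    exact ih

lemma law_cls (s : ℕ) : ∀ x g : G, law s (x * g * x⁻¹) = law s g := by
  classical
  induction s with
  | zero => intro x g; rfl
  | succ s ih =>
    intro x g
    rw [law, law]
    refine (Fintype.sum_equiv (MulAut.conj x).toEquiv _ _ (fun a => ?_)).symm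
    refine (Fintype.sum_equiv (MulAut.conj x).toEquiv _ _ (fun b => ?_))
    simp only [MulEquiv.toEquiv_eq_coe, EquivLike.coe_coe, MulAut.conj_apply, ih]
    have h : (x * a * x⁻¹ * (x * b * x⁻¹) * (x * a * x⁻¹)⁻¹ * (x * b * x⁻¹)⁻¹ = x * g * x⁻¹) ↔
        (a * b * a⁻¹ * b⁻¹ = g) := by
      have e : x * a * x⁻¹ * (x * b * x⁻¹) * (x * a * x⁻¹)⁻¹ * (x * b * x⁻¹)⁻¹ =
          x * (a * b * a⁻¹ * b⁻¹) * x⁻¹ := by group
      rw [e]
      constructor
      · intro h
        have := mul_right_cancel (mul_left_cancel (by simpa only [mul_assoc] using h) :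
          (a * b * a⁻¹ * b⁻¹) * x⁻¹ = g * x⁻¹)
        exact this
      · intro h; rw [h]
    by_cases hh : a * b * a⁻¹ * b⁻¹ = g
    · rw [if_pos hh, if_pos (h.2 hh)]
    · rw [if_neg hh, if_neg (fun h' => hh (h.1 h'))]

lemma law_inv (s : ℕ) : ∀ g : G, law s g⁻¹ = law s g := by
  classical
  cases s with
  | zero => intro g; rfl
  | succ s =>
    intro g
    rw [law, law, sum_comm]
    apply sum_congr rfl; intro a _
    apply sum_congr rfl; intro b _
    have h : (b * a * b⁻¹ * a⁻¹ = g⁻¹) ↔ (a * b * a⁻¹ * b⁻¹ = g) := by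
      have e : b * a * b⁻¹ * a⁻¹ = (a * b * a⁻¹ * b⁻¹)⁻¹ := by group
      rw [e, inv_inj]
    by_cases hh : a * b * a⁻¹ * b⁻¹ = g
    · rw [if_pos hh, if_pos (h.2 hh), mul_comm]
    · rw [if_neg hh, if_neg (fun h' => hh (h.1 h'))]

lemma law_ne (s : ℕ) : ∀ g : G, law s g ≠ 0 → IsE s g := by
  classical
  induction s with
  | zero => intro g _; trivial
  | succ s ih =>
    intro g hg
    rw [law] at hg
    obtain ⟨a, _, ha⟩ := exists_ne_zero_of_sum_ne_zero hg
    obtain ⟨b, _, hb⟩ := exists_ne_zero_of_sum_ne_zero ha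
    by_cases h : a * b * a⁻¹ * b⁻¹ = g
    · rw [if_pos h] at hb
      exact ⟨a, b, ih a (left_ne_zero_of_mul hb), ih b (right_ne_zero_of_mul hb), h⟩
    · rw [if_neg h] at hb
      exact absurd rfl hb

/-- the numbers `2 ^ (-(2 ^ s - 1))` -/
noncomputable def eps : ℕ → ℝ
  | 0 => 1
  | s + 1 => eps s ^ 2 / 2

lemma eps_pos (s : ℕ) : 0 < eps s := by
  induction s with
  | zero => rw [eps]; norm_num
  | succ s ih => rw [eps]; positivity

lemma eps_le (s : ℕ) : eps s ≤ 1 := by
  induction s with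
  | zero => rw [eps]
  | succ s ih =>
    rw [eps]
    have := eps_pos s
    nlinarith

lemma eps_eq (s : ℕ) : eps s = (1 / 2) ^ (2 ^ s - 1) := by
  induction s with
  | zero => rw [eps]; simp
  | succ s ih =>
    rw [eps, ih, ← pow_mul, div_eq_mul_inv, ← one_div, ← pow_succ]
    congr 1
    have : 1 ≤ 2 ^ s := Nat.one_le_two_pow
    rw [pow_succ]
    omega

lemma sum_chr {α : G → ℂ} (hα : IsChr α) (hnl : ∃ g, ‖α g‖ ≠ 1) : ∑ g, α g = 0 := by
  classical
  by_contra h0
  obtain ⟨g, hg⟩ := hnl
  apply hg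
  have hc : (Fintype.card G : ℂ) ≠ 0 := Nat.cast_ne_zero.2 Fintype.card_ne_zero
  have h1 : (Fintype.card G : ℂ) * (α g * ∑ h, α h) = (Fintype.card G : ℂ) * ∑ h, α h := by
    calc (Fintype.card G : ℂ) * (α g * ∑ h, α h)
        = ∑ h, (Fintype.card G : ℂ) * (α g * α h) := by rw [mul_sum, mul_sum]
      _ = ∑ h, ∑ x, α (g * (x * h * x⁻¹)) := sum_congr rfl fun h _ => hα.mul g h
      _ = ∑ x, ∑ h, α (g * (x * h * x⁻¹)) := sum_comm
      _ = ∑ x : G, ∑ h, α h := by
          apply sum_congr rfl; intro x _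
          exact Fintype.sum_equiv ((MulAut.conj x).toEquiv.trans (Equiv.mulLeft g)) _ _
            (fun h => by simp [MulAut.conj_apply])
      _ = _ := by rw [sum_const, card_univ, nsmul_eq_mul]
  have h2 := mul_left_cancel₀ hc h1
  have h3 : (α g - 1) * ∑ h, α h = 0 := by rw [sub_mul, h2]; ring
  rcases mul_eq_zero.1 h3 with h4 | h4
  · rw [sub_eq_zero.1 h4, norm_one]
  · exact absurd h4 h0

lemma re_inner_eq (v w : Sp G) : ∑ p, (conj (v p) * w p).re = (⟪v, w⟫_ℂ).re := by
  rw [PiLp.inner_apply, Complex.re_sum]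
  apply sum_congr rfl; intro p _
  rw [RCLike.inner_apply, mul_comm]

/-- mean of the squares -/
lemma mean_sq (hp : commutator G = ⊤) {α : G → ℂ} (hα : IsChr α) (hnl : ∃ g, ‖α g‖ ≠ 1) :
    ∑ g, ‖α g‖ ^ 2 ≤ (Fintype.card G : ℝ) / 2 := by
  classical
  obtain ⟨ξ, hξ⟩ := hα.rep
  have hT : ⁅(⊤ : Subgroup G), (⊤ : Subgroup G)⁆ = ⊤ := hp
  have h0 : av ⁅(⊤ : Subgroup G), (⊤ : Subgroup G)⁆ ξ = 0 := by
    rw [hT]
    apply norm_av hξ
    simpa using sum_chr hα hnl
  have h := half' hα hξ ⊤ h0
  have h2 : cd (⊤ : Subgroup G) = Fintype.card G := by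
    unfold cd; simp
  rw [h2] at h
  simpa using h

/-- **The mean of a character over the law of an iterated commutator.** -/
theorem law_bound (hp : commutator G = ⊤) (s : ℕ) : ∀ α : G → ℂ, IsChr α →
    (∃ g, ‖α g‖ ≠ 1) → ∑ g, law s g * (α g).re ≤ 1 - eps s := by
  classical
  have hN : (0 : ℝ) < Fintype.card G := by exact_mod_cast Fintype.card_pos
  induction s with
  | zero =>
    intro α hα hnl
    simp_rw [law]
    rw [← mul_sum, ← Complex.re_sum, sum_chr hα hnl, eps]
    simp
  | succ s ih =>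
    intro α hα hnl
    obtain ⟨ξ, hξ⟩ := hα.rep
    have hε := eps_pos s
    -- fixed first entry
    have h1 : ∀ a, ∑ b, law s b * (α (a * b * a⁻¹ * b⁻¹)).re ≤
        ‖α a‖ ^ 2 + (1 - eps s) * (1 - ‖α a‖ ^ 2) := by
      intro a
      have h2 := kernel_bound hp (law_inv s) (law_cls s) ih
        (fun x p => U (x * a⁻¹ * x⁻¹) ξ p) (fun g => (α (a * g * a⁻¹ * g⁻¹)).re)
        (m := ‖α a‖ ^ 2) (by
          intro x g
          rw [re_inner_eq (U (x * a⁻¹ * x⁻¹) ξ) (U (x * g * a⁻¹ * (x * g)⁻¹) ξ), inner_U_left,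
            ← U_mul, ← hξ, ← hα.cls x (a * g * a⁻¹ * g⁻¹)]
          congr 2
          group) (by
          have h3 := hα.mul a a⁻¹
          have h4 : α a * α a⁻¹ = ((‖α a‖ ^ 2 : ℝ) : ℂ) := by
            rw [hα.inv, Complex.mul_conj']
            norm_cast
          rw [h4] at h3
          have h5 := congrArg Complex.re h3
          rw [← Complex.ofReal_natCast, ← Complex.ofReal_mul, Complex.ofReal_re,
            Complex.re_sum] at h5
          rw [h5]
          apply sum_congr rfl; intro x _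
          congr 2
          group) (law_total s)
      have h6 : (α (a * 1 * a⁻¹ * 1⁻¹)).re = 1 := by
        have : a * 1 * a⁻¹ * 1⁻¹ = (1 : G) := by group
        rw [this, hα.one, Complex.one_re]
      rw [h6] at h2
      exact h2
    -- the squares
    have h7 : ∑ a, law s a * ‖α a‖ ^ 2 ≤ 1 - eps s / 2 := by
      have hm := mean_sq hp hα hnl
      have h2 := kernel_bound hp (law_inv s) (law_cls s) ih
        (fun x (p : (G × G) × (G × G)) => U x ξ p.1 * conj (U x ξ p.2))
        (fun g => ‖α g‖ ^ 2) (m := (∑ g, ‖α g‖ ^ 2) / Fintype.card G) (by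
          intro x g
          have e1 : ⟪U x ξ, U (x * g) ξ⟫_ℂ = α g := by
            rw [inner_U_left, ← U_mul, ← hξ]
            congr 1
            group
          have e2 : ∑ p, conj (U x ξ p) * U (x * g) ξ p = α g := by
            rw [← e1, PiLp.inner_apply]
            apply sum_congr rfl; intro p _
            rw [RCLike.inner_apply, mul_comm]
          have e3 : ∑ i : (G × G) × (G × G), conj (U x ξ i.1 * conj (U x ξ i.2)) *
              (U (x * g) ξ i.1 * conj (U (x * g) ξ i.2)) = α g * conj (α g) := by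
            rw [← e2, map_sum, sum_mul_sum, Fintype.sum_prod_type]
            apply sum_congr rfl; intro p _
            apply sum_congr rfl; intro q _
            simp only [map_mul, Complex.conj_conj]
            ring
          rw [← Complex.re_sum, e3, Complex.mul_conj']
          norm_cast) (by
          field_simp) (law_total s)
      have h8 : ‖α 1‖ ^ 2 = 1 := by rw [hα.one]; simp
      rw [h8] at h2
      have h9 : (∑ g, ‖α g‖ ^ 2) / (Fintype.card G : ℝ) ≤ 1 / 2 := by
        rw [div_le_iff₀ hN]; linarith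
      nlinarith
    rw [law_sum s (fun g => (α g).re), eps]
    calc ∑ a, law s a * ∑ b, law s b * (α (a * b * a⁻¹ * b⁻¹)).re
        ≤ ∑ a, law s a * (‖α a‖ ^ 2 + (1 - eps s) * (1 - ‖α a‖ ^ 2)) :=
          sum_le_sum fun a _ => mul_le_mul_of_nonneg_left (h1 a) (law_nonneg s a)
      _ = eps s * ∑ a, law s a * ‖α a‖ ^ 2 + (1 - eps s) * ∑ a, law s a := by
          rw [mul_sum, mul_sum, ← sum_add_distrib]
          apply sum_congr rfl; intro a _
          ring
      _ ≤ 1 - eps s ^ 2 / 2 := by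
          rw [law_total]
          nlinarith

end Vale.Agent.P318.R2.H378
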