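import Vale.Agent.P318.R2.H678.SpecC
import Vale.Agent.P318.R2.H378.Mean

/-!
# Class weights on a perfect finite group: the bound for kernels
-/

open Finset
open scoped ComplexConjugate InnerProductSpace

set_option linter.all false

namespace Vale.Agent.P318.R2.H378

open Vale.Agent.P318.R2.H356

variable {G : Type*} [Group G] [Fintype G]

lemma normsq_sub (a b : ℂ) : ‖a - b‖ ^ 2 = ‖a‖ ^ 2 + ‖b‖ ^ 2 - 2 * (conj b * a).re := by
  rw [← Complex.normSq_eq_norm_sq, ← Complex.normSq_eq_norm_sq, ← Complex.normSq_eq_norm_sq,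
    Complex.normSq_sub]
  rw [mul_comm (conj b) a]

/-- the spectral bound -/
theorem spec_perfect (hp : commutator G = ⊤) {c : G → ℝ} (hs : ∀ g, c g⁻¹ = c g)
    (hcl : ∀ x g, c (x * g * x⁻¹) = c g) {e : ℝ}
    (he : ∀ α : G → ℂ, IsChr α → (∃ g, ‖α g‖ ≠ 1) → ∑ g, c g * (α g).re ≤ e)
    (f : G → ℂ) (hf : ∑ x, f x = 0) :
    ∑ g, c g * ∑ x, (conj (f x) * f (x * g)).re ≤ e * ∑ x, ‖f x‖ ^ 2 := by
  classical
  have hcond : ∀ f : G → ℂ, (∑ x, f x = 0) → ∀ x, ∑ h : commutator G, f (x * h) = 0 := by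
    intro f hf x
    rw [← hf]
    have hmem : ∀ y : G, x⁻¹ * y ∈ commutator G := by
      intro y; rw [hp]; trivial
    refine Fintype.sum_equiv
      { toFun := fun h : commutator G => x * (h : G)
        invFun := fun y => ⟨x⁻¹ * y, hmem y⟩
        left_inv := fun h => by ext; simp
        right_inv := fun y => by simp } _ _ (fun h => rfl)
  by_cases h0 : f = 0
  · subst h0
    simp
  obtain ⟨α, hα, hnl, hspec⟩ := R2.H678.specChr hs hcl ⟨f, h0, hcond f hf⟩
  have h1 := hspec f (hcond f hf)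
  have h2 : ∀ g, ∑ x, ‖f (x * g) - f x‖ ^ 2 =
      2 * ∑ x, ‖f x‖ ^ 2 - 2 * ∑ x, (conj (f x) * f (x * g)).re := by
    intro g
    simp_rw [normsq_sub]
    rw [sum_sub_distrib, sum_add_distrib, ← mul_sum]
    have h3 : ∑ x, ‖f (x * g)‖ ^ 2 = ∑ x, ‖f x‖ ^ 2 :=
      Fintype.sum_equiv (Equiv.mulRight g) _ _ (fun x => rfl)
    rw [h3]; ring
  simp_rw [h2] at h1
  have h4 : ∑ g, c g * (2 * ∑ x, ‖f x‖ ^ 2 - 2 * ∑ x, (conj (f x) * f (x * g)).re) =
      2 * (∑ g, c g) * ∑ x, ‖f x‖ ^ 2 - 2 * ∑ g, c g * ∑ x, (conj (f x) * f (x * g)).re := by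
    generalize ∑ x, ‖f x‖ ^ 2 = A
    have : ∀ R : G → ℝ, ∑ g, c g * (2 * A - 2 * R g) = 2 * (∑ g, c g) * A - 2 * ∑ g, c g * R g := by
      intro R
      rw [mul_sum, sum_mul, mul_sum, ← sum_sub_distrib]
      apply sum_congr rfl; intro g _
      ring
    exact this _
  rw [h4] at h1
  have h5 : ∑ g, c g * (1 - (α g).re) = ∑ g, c g - ∑ g, c g * (α g).re := by
    rw [← sum_sub_distrib]
    apply sum_congr rfl; intro g _; ring
  rw [h5] at h1
  have h6 := he α hα hnl
  have h7 : 0 ≤ ∑ x, ‖f x‖ ^ 2 := sum_nonneg fun x _ => by positivity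
  nlinarith [mul_le_mul_of_nonneg_right h6 h7]

variable {ι : Type*} [Fintype ι]

/-- kernels -/
theorem kernel_bound (hp : commutator G = ⊤) {c : G → ℝ} (hs : ∀ g, c g⁻¹ = c g)
    (hcl : ∀ x g, c (x * g * x⁻¹) = c g) {e : ℝ}
    (he : ∀ α : G → ℂ, IsChr α → (∃ g, ‖α g‖ ≠ 1) → ∑ g, c g * (α g).re ≤ e)
    (f : G → ι → ℂ) (ψ : G → ℝ)
    (hψ : ∀ x g, ∑ i, (conj (f x i) * f (x * g) i).re = ψ g) {m : ℝ}
    (hm : (Fintype.card G : ℝ) * m = ∑ g, ψ g) (hc1 : ∑ g, c g = 1) :
    ∑ g, c g * ψ g ≤ m + e * (ψ 1 - m) := by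
  classical
  have hN : (0 : ℝ) < Fintype.card G := by exact_mod_cast Fintype.card_pos
  set N : ℝ := (Fintype.card G : ℝ) with hNdef
  set fb : ι → ℂ := fun i => ((N⁻¹ : ℝ) : ℂ) * ∑ x, f x i with hfb
  set f1 : G → ι → ℂ := fun x i => f x i - fb i with hf1
  have hNc : (N : ℂ) ≠ 0 := by
    exact_mod_cast hN.ne'
  have hsum : ∀ i, ∑ x, f x i = (N : ℂ) * fb i := by
    intro i
    simp only [hfb]
    rw [← mul_assoc]
    push_cast
    rw [mul_inv_cancel₀ hNc, one_mul]
  have hf1s : ∀ i, ∑ x, f1 x i = 0 := by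
    intro i
    simp only [hf1]
    rw [sum_sub_distrib, hsum, sum_const, card_univ, nsmul_eq_mul]
    have : ((Fintype.card G : ℕ) : ℂ) = (N : ℂ) := by simp [hNdef]
    rw [this]; ring
  have hsum' : ∀ g i, ∑ x, f (x * g) i = (N : ℂ) * fb i := by
    intro g i
    rw [← hsum i]
    exact Fintype.sum_equiv (Equiv.mulRight g) _ _ (fun x => rfl)
  -- the mean
  have hmean : ∑ i, (conj (fb i) * fb i).re = m := by
    have h1 : ∑ x, ∑ y, ∑ i, (conj (f x i) * f y i).re = N * ∑ g, ψ g := by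
      have h2 : ∀ x, ∑ y, ∑ i, (conj (f x i) * f y i).re = ∑ g, ψ g := by
        intro x
        rw [← Fintype.sum_equiv (Equiv.mulLeft x) (fun g => ∑ i, (conj (f x i) * f (x * g) i).re)
          (fun y => ∑ i, (conj (f x i) * f y i).re) (fun g => rfl)]
        exact sum_congr rfl fun g _ => hψ x g
      simp_rw [h2]
      rw [sum_const, card_univ, nsmul_eq_mul]
    have h3 : ∑ x, ∑ y, ∑ i, (conj (f x i) * f y i).re =
        ∑ i, (conj (∑ x, f x i) * ∑ y, f y i).re := by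
      have h4 : ∀ i, (conj (∑ x, f x i) * ∑ y, f y i).re =
          ∑ x, ∑ y, (conj (f x i) * f y i).re := by
        intro i
        rw [map_sum, sum_mul_sum, Complex.re_sum]
        apply sum_congr rfl; intro x _
        rw [Complex.re_sum]
      simp_rw [h4]
      calc ∑ x, ∑ y, ∑ i, (conj (f x i) * f y i).re
          = ∑ x, ∑ i, ∑ y, (conj (f x i) * f y i).re := sum_congr rfl fun x _ => sum_comm
        _ = _ := sum_comm
    rw [h3] at h1
    simp_rw [hsum] at h1
    have h5 : ∀ i, (conj ((N : ℂ) * fb i) * ((N : ℂ) * fb i)).re =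
        N * N * (conj (fb i) * fb i).re := by
      intro i
      rw [map_mul, Complex.conj_ofReal]
      have : (N : ℂ) * conj (fb i) * ((N : ℂ) * fb i) = ((N * N : ℝ) : ℂ) * (conj (fb i) * fb i) := by
        push_cast; ring
      rw [this, Complex.re_ofReal_mul]
    simp_rw [h5] at h1
    rw [← mul_sum, ← hm] at h1
    have h6 : N * N * (∑ i, (conj (fb i) * fb i).re) = N * N * m := by rw [h1]; ring
    exact mul_left_cancel₀ (mul_ne_zero hN.ne' hN.ne') h6
  -- the correlation of the centred function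
  have hcor : ∀ g, ∑ i, ∑ x, (conj (f1 x i) * f1 (x * g) i).re = N * (ψ g - m) := by
    intro g
    have h1 : ∀ i, ∑ x, (conj (f1 x i) * f1 (x * g) i).re =
        ∑ x, (conj (f x i) * f (x * g) i).re - N * (conj (fb i) * fb i).re := by
      intro i
      have h2 : ∑ x, conj (f1 x i) * f1 (x * g) i =
          ∑ x, conj (f x i) * f (x * g) i - (N : ℂ) * (conj (fb i) * fb i) := by
        have h3 : ∀ x, conj (f1 x i) * f1 (x * g) i =
            conj (f x i) * f (x * g) i - conj (f x i) * fb i - conj (fb i) * f (x * g) i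
              + conj (fb i) * fb i := by
          intro x
          simp only [hf1, map_sub]
          ring
        simp_rw [h3]
        rw [sum_add_distrib, sum_sub_distrib, sum_sub_distrib, ← sum_mul, ← mul_sum, hsum',
          ← map_sum, hsum, map_mul, Complex.conj_ofReal, sum_const, card_univ, nsmul_eq_mul]
        have : ((Fintype.card G : ℕ) : ℂ) = (N : ℂ) := by simp [hNdef]
        rw [this]; ring
      rw [← Complex.re_sum, h2, Complex.sub_re, Complex.re_sum, Complex.re_ofReal_mul]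
    simp_rw [h1]
    rw [sum_sub_distrib, ← mul_sum, hmean, sum_comm]
    simp_rw [hψ]
    rw [sum_const, card_univ, nsmul_eq_mul]
    ring
  have hone : ∑ i, ∑ x, ‖f1 x i‖ ^ 2 = N * (ψ 1 - m) := by
    rw [← hcor 1]
    apply sum_congr rfl; intro i _
    apply sum_congr rfl; intro x _
    rw [mul_one, Complex.conj_mul']
    norm_cast
  have hb : ∀ i, ∑ g, c g * ∑ x, (conj (f1 x i) * f1 (x * g) i).re ≤ e * ∑ x, ‖f1 x i‖ ^ 2 :=
    fun i => spec_perfect hp hs hcl he (fun x => f1 x i) (hf1s i)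
  have hb2 := sum_le_sum fun i (_ : i ∈ (univ : Finset ι)) => hb i
  rw [← mul_sum, hone, sum_comm] at hb2
  simp_rw [← mul_sum, hcor] at hb2
  have h9 : ∑ g, c g * (N * (ψ g - m)) = N * (∑ g, c g * ψ g - m) := by
    have : ∀ g, c g * (N * (ψ g - m)) = N * (c g * ψ g) - N * m * c g := fun g => by ring
    simp_rw [this]
    rw [sum_sub_distrib, ← mul_sum, ← mul_sum, hc1]
    ring
  rw [h9] at hb2
  have h10 : N * (∑ g, c g * ψ g - m) ≤ N * (e * (ψ 1 - m)) := by
    calc _ ≤ e * (N * (ψ 1 - m)) := hb2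
      _ = _ := by ring
  have h11 := le_of_mul_le_mul_left h10 hN
  linarith

end Vale.Agent.P318.R2.H378
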