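import Vale.Agent.P318.R2.H356.Chr

/-!
# Sums over subgroups, and the operator lemma

If the sum of `U d ξ` over the commutator subgroup of `L` vanishes, then the normalised character
has modulus at most `1/√2` somewhere on `L`.
-/

open Finset
open scoped ComplexConjugate InnerProductSpace

set_option linter.unusedSectionVars false

namespace Vale.Agent.P318.R2.H378

open Vale.Agent.P318.R2.H356

variable {G : Type*} [Group G] [Fintype G]

open Classical in
/-- the sum of `U x v` over a subgroup -/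
noncomputable def av (X : Subgroup G) (v : Sp G) : Sp G := ∑ x with x ∈ X, U x v

open Classical in
/-- the order of a subgroup -/
noncomputable def cd (X : Subgroup G) : ℕ := (univ.filter fun x => x ∈ X).card

lemma cd_pos (X : Subgroup G) : 0 < cd X := by
  classical
  unfold cd
  exact card_pos.2 ⟨1, mem_filter.2 ⟨mem_univ _, X.one_mem⟩⟩

lemma sum_sub_left {M : Type*} [AddCommMonoid M] (X : Subgroup G) [DecidablePred (· ∈ X)]
    {h : G} (hh : h ∈ X) (F : G → M) :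
    ∑ x with x ∈ X, F (h * x) = ∑ x with x ∈ X, F x := by
  refine Finset.sum_bij' (fun x _ => h * x) (fun x _ => h⁻¹ * x) ?_ ?_ ?_ ?_ ?_
  · intro x hx
    rw [mem_filter] at hx ⊢
    exact ⟨mem_univ _, X.mul_mem hh hx.2⟩
  · intro x hx
    rw [mem_filter] at hx ⊢
    exact ⟨mem_univ _, X.mul_mem (X.inv_mem hh) hx.2⟩
  · intro x _; simp
  · intro x _; simp
  · intro x _; rfl

lemma sum_sub_right {M : Type*} [AddCommMonoid M] (X : Subgroup G) [DecidablePred (· ∈ X)]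
    {h : G} (hh : h ∈ X) (F : G → M) :
    ∑ x with x ∈ X, F (x * h) = ∑ x with x ∈ X, F x := by
  refine Finset.sum_bij' (fun x _ => x * h) (fun x _ => x * h⁻¹) ?_ ?_ ?_ ?_ ?_
  · intro x hx
    rw [mem_filter] at hx ⊢
    exact ⟨mem_univ _, X.mul_mem hx.2 hh⟩
  · intro x hx
    rw [mem_filter] at hx ⊢
    exact ⟨mem_univ _, X.mul_mem hx.2 (X.inv_mem hh)⟩
  · intro x _; simp
  · intro x _; simp
  · intro x _; rfl

lemma sum_sub_inv {M : Type*} [AddCommMonoid M] (X : Subgroup G) [DecidablePred (· ∈ X)]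
    (F : G → M) :
    ∑ x with x ∈ X, F x⁻¹ = ∑ x with x ∈ X, F x := by
  refine Finset.sum_bij' (fun x _ => x⁻¹) (fun x _ => x⁻¹) ?_ ?_ ?_ ?_ ?_
  · intro x hx
    rw [mem_filter] at hx ⊢
    exact ⟨mem_univ _, X.inv_mem hx.2⟩
  · intro x hx
    rw [mem_filter] at hx ⊢
    exact ⟨mem_univ _, X.inv_mem hx.2⟩
  · intro x _; simp
  · intro x _; simp
  · intro x _; rfl

lemma U_av (X : Subgroup G) {h : G} (hh : h ∈ X) (v : Sp G) : U h (av X v) = av X v := by
  classical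
  unfold av
  rw [map_sum]
  simp_rw [← U_mul]
  exact sum_sub_left X hh (fun x => U x v)

lemma av_U (X : Subgroup G) {h : G} (hh : h ∈ X) (v : Sp G) : av X (U h v) = av X v := by
  classical
  unfold av
  simp_rw [← U_mul]
  exact sum_sub_right X hh (fun x => U x v)

lemma av_inner (X : Subgroup G) (v w : Sp G) : ⟪av X v, w⟫_ℂ = ⟪v, av X w⟫_ℂ := by
  classical
  unfold av
  rw [sum_inner, inner_sum]
  simp_rw [inner_U_left]
  exact sum_sub_inv X (fun x => ⟪v, U x w⟫_ℂ)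

lemma av_of_fixed (X : Subgroup G) {v : Sp G} (h : ∀ x ∈ X, U x v = v) :
    av X v = (cd X : ℂ) • v := by
  classical
  unfold av cd
  rw [sum_congr rfl (g := fun _ => v)]
  · rw [sum_const, Nat.cast_smul_eq_nsmul]
  · intro x hx
    exact h x (mem_filter.1 hx).2

/-- translating the sum by an element normalising the subgroup -/
lemma U_av_norm (X : Subgroup G) {g : G} (hg : ∀ x ∈ X, g * x * g⁻¹ ∈ X)
    (hg' : ∀ x ∈ X, g⁻¹ * x * g ∈ X) (v : Sp G) : U g (av X v) = av X (U g v) := by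
  classical
  unfold av
  rw [map_sum]
  refine Finset.sum_bij' (fun x _ => g * x * g⁻¹) (fun x _ => g⁻¹ * x * g) ?_ ?_ ?_ ?_ ?_
  · intro x hx
    rw [mem_filter] at hx ⊢
    exact ⟨mem_univ _, hg x hx.2⟩
  · intro x hx
    rw [mem_filter] at hx ⊢
    exact ⟨mem_univ _, hg' x hx.2⟩
  · intro x _; group
  · intro x _; group
  · intro x _
    rw [← U_mul, ← U_mul]
    congr 1
    group

lemma norm_xi {α : G → ℂ} {ξ : Sp G} (h1 : α 1 = 1) (hξ : ∀ g, α g = ⟪ξ, U g ξ⟫_ℂ) :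
    ‖ξ‖ = 1 := IsChr.norm_rep h1 hξ

/-- Bessel for two orthogonal vectors -/
lemma bessel_two {v w u : Sp G} (hv : ‖v‖ = 1) (hvw : ⟪v, w⟫_ℂ = 0) :
    ‖⟪u, v⟫_ℂ‖ ^ 2 * ‖w‖ ^ 2 + ‖⟪u, w⟫_ℂ‖ ^ 2 ≤ ‖u‖ ^ 2 * ‖w‖ ^ 2 := by
  -- replace `u` by its part orthogonal to `v`
  set a : ℂ := ⟪v, u⟫_ℂ with ha
  have h1 : ⟪a • v, u - a • v⟫_ℂ = 0 := by
    rw [inner_smul_left, inner_sub_right, inner_smul_right, inner_self_eq_norm_sq_to_K, hv]
    simp [ha]
  have h2 := norm_add_sq_eq_norm_sq_add_norm_sq_of_inner_eq_zero _ _ h1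
  rw [add_sub_cancel, norm_smul, hv] at h2
  have h3 : ⟪u - a • v, w⟫_ℂ = ⟪u, w⟫_ℂ := by
    rw [inner_sub_left, inner_smul_left, hvw]; simp
  have h4 : ‖⟪u, w⟫_ℂ‖ ≤ ‖u - a • v‖ * ‖w‖ := by
    rw [← h3]; exact norm_inner_le_norm _ _
  have h5 : ‖⟪u, w⟫_ℂ‖ ^ 2 ≤ ‖u - a • v‖ ^ 2 * ‖w‖ ^ 2 := by
    rw [← mul_pow]; exact pow_le_pow_left₀ (norm_nonneg _) h4 2
  have h6 : ‖⟪u, v⟫_ℂ‖ = ‖a‖ := by rw [ha, norm_inner_symm]
  rw [h6]
  have h7 : ‖u - a • v‖ ^ 2 = ‖u‖ ^ 2 - ‖a‖ ^ 2 := by nlinarith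
  rw [h7] at h5
  nlinarith

open Classical in
/-- the quadratic form `∑ n ∈ L, |⟨U n ξ, v⟩|²` -/
noncomputable def qf (L : Subgroup G) (ξ v : Sp G) : ℝ := ∑ n with n ∈ L, ‖⟪U n ξ, v⟫_ℂ‖ ^ 2

lemma qf_nonneg (L : Subgroup G) (ξ v : Sp G) : 0 ≤ qf L ξ v := by
  classical
  unfold qf
  exact sum_nonneg fun n _ => by positivity

lemma qf_smul (L : Subgroup G) (ξ v : Sp G) (c : ℂ) : qf L ξ (c • v) = ‖c‖ ^ 2 * qf L ξ v := by
  classical
  unfold qf
  rw [mul_sum]
  apply sum_congr rfl; intro n _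
  rw [inner_smul_right, norm_mul, mul_pow]

lemma qf_parallelogram (L : Subgroup G) (ξ v w : Sp G) :
    qf L ξ (v + w) + qf L ξ (v - w) = 2 * qf L ξ v + 2 * qf L ξ w := by
  classical
  unfold qf
  rw [← sum_add_distrib, mul_sum, mul_sum, ← sum_add_distrib]
  apply sum_congr rfl; intro n _
  rw [inner_add_right, inner_sub_right]
  have := parallelogram_law_with_norm ℝ (⟪U n ξ, v⟫_ℂ) (⟪U n ξ, w⟫_ℂ)
  nlinarith

lemma qf_U (L : Subgroup G) (ξ v : Sp G) {x : G} (hx : x ∈ L) : qf L ξ (U x v) = qf L ξ v := by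
  classical
  unfold qf
  rw [← sum_sub_left L hx (fun n => ‖⟪U n ξ, U x v⟫_ℂ‖ ^ 2)]
  apply sum_congr rfl; intro n _
  rw [U_mul, inner_U_left, ← U_mul, inv_mul_cancel, U_one]

lemma qf_continuous (L : Subgroup G) (ξ : Sp G) : Continuous (qf L ξ) := by
  classical
  unfold qf
  fun_prop

/-- **The operator lemma.** -/
theorem half {α : G → ℂ} (hα : IsChr α) {ξ : Sp G} (hξ : ∀ g, α g = ⟪ξ, U g ξ⟫_ℂ)
    (L : Subgroup G) (h0 : av ⁅L, L⁆ ξ = 0) : ∃ n ∈ L, ‖α n‖ ^ 2 ≤ 1 / 2 := by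
  classical
  by_contra hcon
  push Not at hcon
  have hnorm := norm_xi hα.one hξ
  -- a maximiser on the unit sphere
  obtain ⟨v, hv, hmax⟩ := (isCompact_sphere (0 : Sp G) 1).exists_isMaxOn
    ⟨ξ, by simp [hnorm]⟩ (qf_continuous L ξ).continuousOn
  have hv1 : ‖v‖ = 1 := by simpa using hv
  set t := qf L ξ v with ht
  have hle : ∀ w : Sp G, qf L ξ w ≤ t * ‖w‖ ^ 2 := by
    intro w
    by_cases hw : w = 0
    · subst hw
      have := qf_smul L ξ (0 : Sp G) 0
      simp at this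
      simp [this]
    · have hwn : 0 < ‖w‖ := norm_pos_iff.2 hw
      have h1 : ‖((‖w‖⁻¹ : ℝ) : ℂ) • w‖ = 1 := by
        rw [norm_smul]
        simp [hwn.ne']
      have h2 : qf L ξ (((‖w‖⁻¹ : ℝ) : ℂ) • w) ≤ t :=
        hmax (by simpa using h1)
      rw [qf_smul] at h2
      have h3 : ‖((‖w‖⁻¹ : ℝ) : ℂ)‖ = ‖w‖⁻¹ := by simp
      rw [h3] at h2
      have h4 : qf L ξ w = (‖w‖⁻¹ ^ 2 * qf L ξ w) * ‖w‖ ^ 2 := by
        field_simp
      rw [h4]
      exact mul_le_mul_of_nonneg_right h2 (by positivity)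
  have hcd : (cd L : ℝ) / 2 < t := by
    have h1 : (cd L : ℝ) / 2 < qf L ξ ξ := by
      have h2 : (cd L : ℝ) / 2 = ∑ n with n ∈ L, (1 / 2 : ℝ) := by
        rw [sum_const]; simp [cd]; ring
      rw [h2]
      unfold qf
      apply sum_lt_sum_of_nonempty
      · exact ⟨1, mem_filter.2 ⟨mem_univ _, L.one_mem⟩⟩
      · intro n hn
        have h3 := hcon n (mem_filter.1 hn).2
        rw [← norm_inner_symm, ← hξ]
        exact h3
    have h4 := hle ξ
    rw [hnorm] at h4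
    linarith
  -- `L` acts by scalars on `v`
  have hscal : ∀ x ∈ L, ∃ c : ℂ, U x v = c • v := by
    intro x hx
    set c : ℂ := ⟪v, U x v⟫_ℂ with hc
    refine ⟨c, ?_⟩
    set w := U x v - c • v with hw
    have horth : ⟪v, w⟫_ℂ = 0 := by
      rw [hw, inner_sub_right, inner_smul_right, inner_self_eq_norm_sq_to_K, hv1]
      simp [hc]
    have hx1 : qf L ξ (U x v) = t := qf_U L ξ v hx
    have hxn : ‖U x v‖ = 1 := by rw [norm_U, hv1]
    have hq : t * ‖w‖ ^ 2 ≤ qf L ξ w := by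
      have h1 := qf_parallelogram L ξ (U x v) (c • v)
      rw [hx1, qf_smul, ← ht] at h1
      have h2 := hle (U x v + c • v)
      have h3 := parallelogram_law_with_norm ℂ (U x v) (c • v)
      rw [hxn, norm_smul, hv1, mul_one] at h3
      have h4 : ‖U x v + c • v‖ ^ 2 = 2 + 2 * ‖c‖ ^ 2 - ‖w‖ ^ 2 := by
        rw [hw]; nlinarith
      rw [h4] at h2
      rw [← hw] at h1
      nlinarith
    by_contra hne
    have hw0 : w ≠ 0 := by
      intro h
      apply hne
      rw [hw] at h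
      exact sub_eq_zero.1 h
    have hwn : 0 < ‖w‖ ^ 2 := by
      have := norm_pos_iff.2 hw0
      positivity
    have hb : ∑ n with n ∈ L, (‖⟪U n ξ, v⟫_ℂ‖ ^ 2 * ‖w‖ ^ 2 + ‖⟪U n ξ, w⟫_ℂ‖ ^ 2) ≤
        ∑ n with n ∈ L, ‖w‖ ^ 2 := by
      apply sum_le_sum; intro n _
      have h1 := bessel_two (u := U n ξ) hv1 horth
      rw [norm_U, hnorm, one_pow, one_mul] at h1
      exact h1
    rw [sum_add_distrib, ← sum_mul, sum_const, nsmul_eq_mul] at hb
    have h5 : t * ‖w‖ ^ 2 + qf L ξ w ≤ (cd L : ℝ) * ‖w‖ ^ 2 := hb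
    nlinarith
  -- the commutator subgroup fixes `v`
  let St : Subgroup G :=
    { carrier := {g | U g v = v}
      one_mem' := U_one v
      mul_mem' := by
        intro x y hx hy
        have hx' : U x v = v := hx
        have hy' : U y v = v := hy
        show U (x * y) v = v
        rw [U_mul, hy', hx']
      inv_mem' := by
        intro x hx
        have hx' : U x v = v := hx
        show U x⁻¹ v = v
        conv_lhs => rw [← hx']
        rw [← U_mul, inv_mul_cancel, U_one] }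
  have hSt : ⁅L, L⁆ ≤ St := by
    rw [Subgroup.commutator_le]
    intro x hx y hy
    show U (x * y * x⁻¹ * y⁻¹) v = v
    obtain ⟨cx, hcx⟩ := hscal x hx
    obtain ⟨cy, hcy⟩ := hscal y hy
    obtain ⟨cz, hcz⟩ := hscal (x⁻¹ * y⁻¹) (L.mul_mem (L.inv_mem hx) (L.inv_mem hy))
    have h1 : U (x * y) v = U (y * x) v := by
      rw [U_mul, U_mul, hcx, hcy, map_smul, map_smul, hcx, hcy, smul_smul, smul_smul, mul_comm]
    have h2 : x * y * x⁻¹ * y⁻¹ = (x * y) * (x⁻¹ * y⁻¹) := by group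
    rw [h2, U_mul, hcz, map_smul, h1, ← map_smul, ← hcz, ← U_mul]
    have h3 : y * x * (x⁻¹ * y⁻¹) = 1 := by group
    rw [h3, U_one]
  have hfix : av ⁅L, L⁆ v = (cd ⁅L, L⁆ : ℂ) • v := av_of_fixed _ fun x hx => hSt hx
  -- so the quadratic form vanishes at `v`
  have hDL : ⁅L, L⁆ ≤ L := by
    rw [Subgroup.commutator_le]
    intro x hx y hy
    exact L.mul_mem (L.mul_mem (L.mul_mem hx hy) (L.inv_mem hx)) (L.inv_mem hy)
  have hz : ∀ n ∈ L, ⟪U n ξ, v⟫_ℂ = 0 := by
    intro n hn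
    have hnorm1 : ∀ x ∈ ⁅L, L⁆, n * x * n⁻¹ ∈ ⁅L, L⁆ := by
      intro x hx
      have h1 : n * x * n⁻¹ = (n * x * n⁻¹ * x⁻¹) * x := by group
      rw [h1]
      exact mul_mem (Subgroup.commutator_mem_commutator hn (hDL hx)) hx
    have hnorm2 : ∀ x ∈ ⁅L, L⁆, n⁻¹ * x * n ∈ ⁅L, L⁆ := by
      intro x hx
      have h1 : n⁻¹ * x * n = (n⁻¹ * x * n⁻¹⁻¹ * x⁻¹) * x := by group
      rw [h1]
      exact mul_mem (Subgroup.commutator_mem_commutator (L.inv_mem hn) (hDL hx)) hx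
    have h1 : ⟪U n ξ, av ⁅L, L⁆ v⟫_ℂ = 0 := by
      rw [← av_inner, ← U_av_norm _ hnorm1 hnorm2, h0, map_zero, inner_zero_left]
    rw [hfix, inner_smul_right] at h1
    rcases mul_eq_zero.1 h1 with h2 | h2
    · have := cd_pos ⁅L, L⁆
      norm_cast at h2
      omega
    · exact h2
  have ht0 : t = 0 := by
    rw [ht]
    unfold qf
    apply sum_eq_zero
    intro n hn
    rw [hz n (mem_filter.1 hn).2]
    simp
  have := cd_pos L
  have h1 : (0 : ℝ) < cd L := by exact_mod_cast this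
  linarith

/-- sum of `α` over a subgroup and the norm of the projected vector -/
lemma norm_av {α : G → ℂ} {ξ : Sp G} (hξ : ∀ g, α g = ⟪ξ, U g ξ⟫_ℂ) (X : Subgroup G)
    [DecidablePred (· ∈ X)] (h0 : ∑ x with x ∈ X, α x = 0) : av X ξ = 0 := by
  classical
  have h1 : ⟪av X ξ, av X ξ⟫_ℂ = 0 := by
    rw [av_inner, av_of_fixed X (v := av X ξ) (fun x hx => U_av X hx ξ), inner_smul_right]
    have h2 : ⟪ξ, av X ξ⟫_ℂ = ∑ x with x ∈ X, α x := by
      unfold av
      rw [inner_sum]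
      simp_rw [← hξ]
      refine sum_congr ?_ (fun _ _ => rfl)
      ext x
      simp only [mem_filter]
    rw [h2, h0, mul_zero]
  exact inner_self_eq_zero.1 h1

/-- **The functional equation on `L` and one value of modulus different from one.** -/
theorem exists_le_half {α : G → ℂ} (hα : IsChr α) (L : Subgroup G) [Fintype L]
    (hfe : ∀ g ∈ L, ∀ h ∈ L, (Fintype.card L : ℂ) * (α g * α h) = ∑ x : L, α (g * (x * h * x⁻¹)))
    (hne : ∃ x ∈ L, ‖α x‖ ≠ 1) : ∃ x ∈ L, ‖α x‖ ^ 2 ≤ 1 / 2 := by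
  classical
  obtain ⟨ξ, hξ⟩ := hα.rep
  have hc : (Fintype.card L : ℂ) ≠ 0 := Nat.cast_ne_zero.2 Fintype.card_ne_zero
  have hDL : ⁅L, L⁆ ≤ L := by
    rw [Subgroup.commutator_le]
    intro x hx y hy
    exact L.mul_mem (L.mul_mem (L.mul_mem hx hy) (L.inv_mem hx)) (L.inv_mem hy)
  have hnormal : ∀ n ∈ L, ∀ x ∈ ⁅L, L⁆, n * x * n⁻¹ ∈ ⁅L, L⁆ := by
    intro n hn x hx
    have h1 : n * x * n⁻¹ = (n * x * n⁻¹ * x⁻¹) * x := by group
    rw [h1]
    exact mul_mem (Subgroup.commutator_mem_commutator hn (hDL hx)) hx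
  set s := ∑ d with d ∈ ⁅L, L⁆, α d with hs
  by_cases h0 : s = 0
  · exact half hα hξ L (norm_av hξ _ h0)
  · -- then `α = 1` on the commutator subgroup
    exfalso
    have hone : ∀ g ∈ ⁅L, L⁆, α g = 1 := by
      intro g hg
      have h1 : (Fintype.card L : ℂ) * (α g * s) = (Fintype.card L : ℂ) * s := by
        calc (Fintype.card L : ℂ) * (α g * s)
            = ∑ d with d ∈ ⁅L, L⁆, (Fintype.card L : ℂ) * (α g * α d) := by
              rw [hs, mul_sum, mul_sum]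
          _ = ∑ d with d ∈ ⁅L, L⁆, ∑ x : L, α (g * (x * d * x⁻¹)) := by
              apply sum_congr rfl; intro d hd
              exact hfe g (hDL hg) d (hDL (mem_filter.1 hd).2)
          _ = ∑ x : L, ∑ d with d ∈ ⁅L, L⁆, α (g * (x * d * x⁻¹)) := sum_comm
          _ = ∑ x : L, s := by
              apply sum_congr rfl; intro x _
              have h2 : ∑ d with d ∈ ⁅L, L⁆, α (g * (x * d * x⁻¹)) =
                  ∑ d with d ∈ ⁅L, L⁆, α (g * d) := by
                refine Finset.sum_bij' (fun d _ => (x : G) * d * (x : G)⁻¹)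
                  (fun d _ => (x : G)⁻¹ * d * x) ?_ ?_ ?_ ?_ ?_
                · intro d hd
                  rw [mem_filter] at hd ⊢
                  exact ⟨mem_univ _, hnormal x x.2 d hd.2⟩
                · intro d hd
                  rw [mem_filter] at hd ⊢
                  have := hnormal _ (L.inv_mem x.2) d hd.2
                  rw [inv_inv] at this
                  exact ⟨mem_univ _, this⟩
                · intro d _; group
                · intro d _; group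
                · intro d _; rfl
              rw [h2, sum_sub_left ⁅L, L⁆ hg α]
          _ = (Fintype.card L : ℂ) * s := by
              rw [sum_const, card_univ, nsmul_eq_mul]
      have h2 := mul_left_cancel₀ hc h1
      have h3 : (α g - 1) * s = 0 := by rw [sub_mul, h2]; ring
      rcases mul_eq_zero.1 h3 with h4 | h4
      · exact sub_eq_zero.1 h4
      · exact absurd h4 h0
    obtain ⟨x, hx, hx1⟩ := hne
    apply hx1
    -- `α x * α x⁻¹ = 1`
    have h1 := hfe x hx x⁻¹ (L.inv_mem hx)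
    have h2 : ∑ y : L, α (x * (y * x⁻¹ * y⁻¹)) = ∑ y : L, (1 : ℂ) := by
      apply sum_congr rfl; intro y _
      have h3 : x * ((y : G) * x⁻¹ * (y : G)⁻¹) = x * y * x⁻¹ * (y : G)⁻¹ := by group
      rw [Subgroup.coe_inv, h3]
      exact hone _ (Subgroup.commutator_mem_commutator hx y.2)
    rw [h2, sum_const, card_univ, nsmul_eq_mul, mul_one] at h1
    have h4 : α x * α x⁻¹ = 1 := by
      have h5 : (Fintype.card L : ℂ) * (α x * α x⁻¹) = (Fintype.card L : ℂ) * 1 := by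
        rw [h1, mul_one]
      exact mul_left_cancel₀ hc h5
    have h6 : ‖α x‖ * ‖α x‖ = 1 := by
      have := congrArg norm h4
      rw [norm_mul, hα.norm_inv, norm_one] at this
      exact this
    nlinarith [norm_nonneg (α x)]

end Vale.Agent.P318.R2.H378
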