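import Vale.Agent.P318.R2.H378.Half

/-!
# The imprimitive case

Conjugates of a subgroup whose averages of the character do not vanish.
-/

open Finset
open scoped ComplexConjugate InnerProductSpace

set_option linter.unusedSectionVars false

namespace Vale.Agent.P318.R2.H378

open Vale.Agent.P318.R2.H356

variable {G : Type*} [Group G]

/-- the conjugate subgroup `g X g⁻¹` -/
def cj (g : G) (X : Subgroup G) : Subgroup G := X.map (MulAut.conj g).toMonoidHom

lemma mem_cj {g x : G} {X : Subgroup G} : x ∈ cj g X ↔ g⁻¹ * x * g ∈ X := by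
  unfold cj
  rw [Subgroup.mem_map]
  constructor
  · rintro ⟨y, hy, rfl⟩
    have : g⁻¹ * ((MulAut.conj g).toMonoidHom y) * g = y := by
      change g⁻¹ * (g * y * g⁻¹) * g = y
      group
    rw [this]; exact hy
  · intro h
    refine ⟨_, h, ?_⟩
    change g * (g⁻¹ * x * g) * g⁻¹ = x
    group

lemma cj_mul (g h : G) (X : Subgroup G) : cj (g * h) X = cj g (cj h X) := by
  ext x
  rw [mem_cj, mem_cj, mem_cj]
  have : (g * h)⁻¹ * x * (g * h) = h⁻¹ * (g⁻¹ * x * g) * h := by group
  rw [this]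

lemma cj_one (X : Subgroup G) : cj 1 X = X := by
  ext x
  rw [mem_cj]; simp

lemma conj_mem_cj {g x : G} {X : Subgroup G} (hx : x ∈ X) : g * x * g⁻¹ ∈ cj g X := by
  rw [mem_cj]
  have : g⁻¹ * (g * x * g⁻¹) * g = x := by group
  rw [this]; exact hx

lemma cj_mono {g : G} {X Y : Subgroup G} (h : X ≤ Y) : cj g X ≤ cj g Y := by
  intro x hx
  rw [mem_cj] at hx ⊢
  exact h hx

/-- the stabiliser of `cj y X` -/
def Hy (y : G) (X : Subgroup G) : Subgroup G where
  carrier := {g | cj g (cj y X) = cj y X}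
  one_mem' := cj_one _
  mul_mem' := by
    intro a b ha hb
    have ha' : cj a (cj y X) = cj y X := ha
    have hb' : cj b (cj y X) = cj y X := hb
    show cj (a * b) (cj y X) = cj y X
    rw [cj_mul, hb', ha']
  inv_mem' := by
    intro a ha
    have ha' : cj a (cj y X) = cj y X := ha
    show cj a⁻¹ (cj y X) = cj y X
    conv_lhs => rw [← ha']
    rw [← cj_mul, inv_mul_cancel, cj_one]

lemma mem_Hy {y g : G} {X : Subgroup G} : g ∈ Hy y X ↔ cj g (cj y X) = cj y X := Iff.rfl

variable [Fintype G]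

lemma sum_cj {M : Type*} [AddCommMonoid M] (g : G) (X : Subgroup G) [DecidablePred (· ∈ X)]
    [DecidablePred (· ∈ cj g X)] (F : G → M) :
    ∑ x with x ∈ cj g X, F x = ∑ x with x ∈ X, F (g * x * g⁻¹) := by
  refine Finset.sum_bij' (fun x _ => g⁻¹ * x * g) (fun x _ => g * x * g⁻¹) ?_ ?_ ?_ ?_ ?_
  · intro x hx
    rw [mem_filter] at hx ⊢
    exact ⟨mem_univ _, mem_cj.1 hx.2⟩
  · intro x hx
    rw [mem_filter] at hx ⊢
    exact ⟨mem_univ _, conj_mem_cj hx.2⟩
  · intro x _; group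
  · intro x _; group
  · intro x _
    congr 1
    group

lemma cd_cj (g : G) (X : Subgroup G) : cd (cj g X) = cd X := by
  classical
  unfold cd
  have := sum_cj g X (F := fun _ => (1 : ℕ))
  simpa using this

/-- `U g` carries the average over `X` to the average over the conjugate -/
lemma U_av_cj (g : G) (X : Subgroup G) (v : Sp G) : U g (av X v) = av (cj g X) (U g v) := by
  classical
  unfold av
  rw [map_sum, sum_cj g X]
  apply sum_congr rfl; intro x _
  rw [← U_mul, ← U_mul]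
  congr 1
  group

open Classical in
/-- the sum of `α` over a subgroup -/
noncomputable def sa (α : G → ℂ) (X : Subgroup G) : ℂ := ∑ x with x ∈ X, α x

lemma sa_cj {α : G → ℂ} (hα : IsChr α) (g : G) (X : Subgroup G) : sa α (cj g X) = sa α X := by
  classical
  unfold sa
  rw [sum_cj g X]
  exact sum_congr rfl fun x _ => hα.cls g x

lemma inner_av_xi {α : G → ℂ} {ξ : Sp G} (hξ : ∀ g, α g = ⟪ξ, U g ξ⟫_ℂ) (X : Subgroup G) :
    ⟪ξ, av X ξ⟫_ℂ = sa α X := by
  classical
  unfold av sa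
  rw [inner_sum]
  simp_rw [← hξ]

lemma av_av (X : Subgroup G) (v : Sp G) : av X (av X v) = (cd X : ℂ) • av X v :=
  av_of_fixed X fun x hx => U_av X hx v

lemma inner_av_av {α : G → ℂ} {ξ : Sp G} (hξ : ∀ g, α g = ⟪ξ, U g ξ⟫_ℂ) (X : Subgroup G) :
    ⟪av X ξ, av X ξ⟫_ℂ = (cd X : ℂ) * sa α X := by
  rw [av_inner, av_av, inner_smul_right, inner_av_xi hξ]

/-- the class function identity -/
lemma star {α : G → ℂ} (hα : IsChr α) {ξ : Sp G} (hξ : ∀ g, α g = ⟪ξ, U g ξ⟫_ℂ) (Y : Subgroup G)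
    [DecidablePred (· ∈ Y)] (g : G) :
    (cd Y : ℂ) * ∑ x with x ∈ Y, α (g * x) = ⟪av Y ξ, U g (av Y ξ)⟫_ℂ := by
  classical
  have h1 : ⟪av Y ξ, U g (av Y ξ)⟫_ℂ = ∑ b with b ∈ Y, ∑ a with a ∈ Y, α (b * (g * a)) := by
    rw [av_inner]
    unfold av
    rw [map_sum, inner_sum]
    apply sum_congr ?_ ?_
    · ext x; simp only [mem_filter]
    intro b _
    rw [map_sum, inner_sum]
    apply sum_congr ?_ ?_
    · ext x; simp only [mem_filter]
    intro a _
    rw [← U_mul, ← U_mul, ← hξ, mul_assoc]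
  rw [h1]
  have h2 : ∀ b ∈ univ.filter (fun x => x ∈ Y), ∑ a with a ∈ Y, α (b * (g * a)) =
      ∑ x with x ∈ Y, α (g * x) := by
    intro b hb
    have hb' := (mem_filter.1 hb).2
    have h3 : ∀ a, α (b * (g * a)) = α (g * (a * b)) := by
      intro a
      rw [← hα.cls b⁻¹ (b * (g * a))]
      congr 1
      group
    simp_rw [h3]
    exact sum_sub_right Y hb' (fun a => α (g * a))
  rw [sum_congr rfl h2, sum_const, nsmul_eq_mul]
  congr 1
  unfold cd
  congr 2
  ext x; simp only [mem_filter]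

open Classical in
/-- **The imprimitive lemma.** -/
theorem imp {α : G → ℂ} (hα : IsChr α) {ξ : Sp G} (hξ : ∀ g, α g = ⟪ξ, U g ξ⟫_ℂ) {c : G → ℝ}
    (hc : ∀ g, 0 ≤ c g) (X : Subgroup G) (hX : sa α X ≠ 0)
    (horth : ∀ y y' : G, cj y X ≠ cj y' X → av (cj y X) (av (cj y' X) ξ) = 0) :
    ∃ y : G, ∑ g with g ∉ Hy y X, c g ≤ ∑ g, c g * (1 - ‖α g‖) := by
  have hn : (0 : ℝ) < Fintype.card G := by
    have := Fintype.card_pos (α := G); positivity
  have hcX : (0 : ℝ) < cd X := by exact_mod_cast cd_pos X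
  set M : ℝ := ‖av X ξ‖ ^ 2 with hM
  have hMX : ((M : ℝ) : ℂ) = (cd X : ℂ) * sa α X := by
    rw [← inner_av_av hξ, inner_self_eq_norm_sq_to_K, hM]
    push_cast
    rfl
  have hM0 : 0 < M := by
    have h1 : M ≠ 0 := by
      intro h
      rw [h] at hMX
      have : (cd X : ℂ) * sa α X ≠ 0 := by
        apply mul_ne_zero _ hX
        have := cd_pos X
        norm_cast
        omega
      exact this hMX.symm
    have h2 : 0 ≤ M := by positivity
    exact lt_of_le_of_ne h2 (Ne.symm h1)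
  -- the terms
  have hterm : ∀ y g : G, ‖(cd X : ℂ) * ∑ x with x ∈ cj y X, α (g * x)‖ ≤
      if g ∈ Hy y X then M else 0 := by
    intro y g
    have h1 := star hα hξ (cj y X) g
    rw [cd_cj] at h1
    rw [h1]
    split_ifs with hg
    · have h2 : ‖av (cj y X) ξ‖ ^ 2 = M := by
        have h3 := inner_av_av hξ (cj y X)
        rw [cd_cj, sa_cj hα, ← hMX] at h3
        have h4 := congrArg Complex.re h3
        rw [Complex.ofReal_re] at h4
        rw [← h4]
        exact (inner_self_eq_norm_sq (𝕜 := ℂ) _).symm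
      calc ‖⟪av (cj y X) ξ, U g (av (cj y X) ξ)⟫_ℂ‖ ≤
          ‖av (cj y X) ξ‖ * ‖U g (av (cj y X) ξ)‖ := norm_inner_le_norm _ _
        _ = M := by rw [norm_U, ← h2]; ring
    · rw [U_av_cj, ← cj_mul, ← av_inner, horth, inner_zero_left, norm_zero]
      intro h
      apply hg
      rw [mem_Hy, ← cj_mul]
      exact h
  have hmain : ∀ g : G, (Fintype.card G : ℝ) * (M * ‖α g‖) ≤
      ∑ y : G, if g ∈ Hy y X then M else 0 := by
    intro g
    have h1 : (Fintype.card G : ℂ) * ((M : ℂ) * α g) =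
        ∑ y : G, (cd X : ℂ) * ∑ x with x ∈ cj y X, α (g * x) := by
      rw [hMX]
      simp_rw [← mul_sum]
      have h2 : ∀ y : G, ∑ x with x ∈ cj y X, α (g * x) =
          ∑ x with x ∈ X, α (g * (y * x * y⁻¹)) := fun y => sum_cj y X (fun x => α (g * x))
      simp_rw [h2]
      rw [sum_comm]
      simp_rw [← hα.mul]
      rw [← mul_sum, ← mul_sum]
      unfold sa
      ring
    calc (Fintype.card G : ℝ) * (M * ‖α g‖) = ‖(Fintype.card G : ℂ) * ((M : ℂ) * α g)‖ := by
          rw [norm_mul, norm_mul]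
          simp [abs_of_pos hM0]
      _ = ‖∑ y : G, (cd X : ℂ) * ∑ x with x ∈ cj y X, α (g * x)‖ := by rw [h1]
      _ ≤ ∑ y : G, ‖(cd X : ℂ) * ∑ x with x ∈ cj y X, α (g * x)‖ := norm_sum_le _ _
      _ ≤ _ := sum_le_sum fun y _ => hterm y g
  have hmain2 : ∀ g : G, ∑ y : G, (if g ∉ Hy y X then (1 : ℝ) else 0) ≤
      (Fintype.card G : ℝ) * (1 - ‖α g‖) := by
    intro g
    have h1 : ∑ y : G, (if g ∉ Hy y X then (1 : ℝ) else 0) +
        ∑ y : G, (if g ∈ Hy y X then (1 : ℝ) else 0) = Fintype.card G := by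
      rw [← sum_add_distrib]
      rw [sum_congr rfl (g := fun _ => (1 : ℝ))]
      · simp
      · intro y _
        by_cases h : g ∈ Hy y X <;> simp [h]
    have h2 := hmain g
    have h3 : ∑ y : G, (if g ∈ Hy y X then M else 0) =
        M * ∑ y : G, (if g ∈ Hy y X then (1 : ℝ) else 0) := by
      rw [mul_sum]
      apply sum_congr rfl; intro y _
      split_ifs <;> simp
    rw [h3] at h2
    have h4 : (Fintype.card G : ℝ) * ‖α g‖ ≤ ∑ y : G, (if g ∈ Hy y X then (1 : ℝ) else 0) := by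
      have h5 : M * ((Fintype.card G : ℝ) * ‖α g‖) ≤
          M * ∑ y : G, (if g ∈ Hy y X then (1 : ℝ) else 0) := by
        calc _ = (Fintype.card G : ℝ) * (M * ‖α g‖) := by ring
          _ ≤ _ := h2
      exact le_of_mul_le_mul_left h5 hM0
    linarith
  -- averaging over the conjugates
  have hsum : ∑ y : G, ∑ g with g ∉ Hy y X, c g ≤ ∑ _y : G, ∑ g, c g * (1 - ‖α g‖) := by
    have h1 : ∑ y : G, ∑ g with g ∉ Hy y X, c g =
        ∑ g, c g * ∑ y : G, (if g ∉ Hy y X then (1 : ℝ) else 0) := by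
      simp_rw [sum_filter, mul_sum]
      rw [sum_comm]
      apply sum_congr rfl; intro g _
      apply sum_congr rfl; intro y _
      split_ifs <;> simp
    rw [h1, sum_const, card_univ, nsmul_eq_mul, mul_sum]
    apply sum_le_sum; intro g _
    calc c g * ∑ y : G, (if g ∉ Hy y X then (1 : ℝ) else 0)
        ≤ c g * ((Fintype.card G : ℝ) * (1 - ‖α g‖)) :=
          mul_le_mul_of_nonneg_left (hmain2 g) (hc g)
      _ = _ := by ring
  obtain ⟨y, -, hy⟩ := exists_le_of_sum_le (s := (univ : Finset G)) ⟨1, mem_univ _⟩ hsum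
  exact ⟨y, hy⟩

/-- `α = 1` on a normal subgroup on which its sum does not vanish -/
lemma one_of_normal {α : G → ℂ} (hα : IsChr α) (X : Subgroup G) (hnorm : ∀ g, cj g X = X)
    (hX : sa α X ≠ 0) {g : G} (hg : g ∈ X) : α g = 1 := by
  classical
  have hn : (Fintype.card G : ℂ) ≠ 0 := Nat.cast_ne_zero.2 Fintype.card_ne_zero
  have h1 : (Fintype.card G : ℂ) * (α g * sa α X) = (Fintype.card G : ℂ) * sa α X := by
    have h2 : (Fintype.card G : ℂ) * (α g * sa α X) =
        ∑ x with x ∈ X, (Fintype.card G : ℂ) * (α g * α x) := by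
      unfold sa
      rw [mul_sum, mul_sum]
    rw [h2]
    simp_rw [hα.mul]
    rw [sum_comm]
    have h3 : ∀ y : G, ∑ x with x ∈ X, α (g * (y * x * y⁻¹)) = sa α X := by
      intro y
      rw [← sum_cj y X (fun x => α (g * x))]
      have h4 : ∑ x with x ∈ cj y X, α (g * x) = ∑ x with x ∈ X, α (g * x) := by
        apply sum_congr _ fun _ _ => rfl
        ext x
        simp only [mem_filter]
        rw [hnorm y]
      rw [h4]
      exact sum_sub_left X hg α
    simp_rw [h3]
    rw [sum_const, card_univ, nsmul_eq_mul]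
  have h2 := mul_left_cancel₀ hn h1
  have h3 : (α g - 1) * sa α X = 0 := by rw [sub_mul, h2]; ring
  rcases mul_eq_zero.1 h3 with h4 | h4
  · exact sub_eq_zero.1 h4
  · exact absurd h4 hX

end Vale.Agent.P318.R2.H378
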