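import Vale.Agent.P318.R2.H378.Avg

/-! Push-forward of capacities to an abelian quotient, and pull-back of cuts. -/

open Finset

set_option linter.unusedSectionVars false

namespace Vale.Agent.P318.R2.H378

open Vale.Agent.P318.H867

variable {G : Type*} [Group G] [Fintype G] {Γ : Type*} [AddCommGroup Γ] [Fintype Γ]
  [DecidableEq Γ]

/-- push-forward of `c` off the kernel -/
def push (p : G → Γ) (c : G → ℝ) (z : Γ) : ℝ := if z = 0 then 0 else ∑ g with p g = z, c g

lemma push_zero (p : G → Γ) (c : G → ℝ) : push p c 0 = 0 := by simp [push]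

lemma push_nonneg (p : G → Γ) {c : G → ℝ} (hc : ∀ g, 0 ≤ c g) (z : Γ) : 0 ≤ push p c z := by
  unfold push
  split_ifs
  · exact le_rfl
  · exact sum_nonneg fun g _ => hc g

lemma p_one {p : G → Γ} (hp : ∀ g h, p (g * h) = p g + p h) : p 1 = 0 := by
  have h := hp 1 1
  rw [mul_one] at h
  exact left_eq_add.1 h

lemma p_inv {p : G → Γ} (hp : ∀ g h, p (g * h) = p g + p h) (g : G) : p g⁻¹ = -p g := by
  have h := hp g⁻¹ g
  rw [inv_mul_cancel, p_one hp] at h
  exact eq_neg_of_add_eq_zero_left h.symm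

lemma push_neg {p : G → Γ} (hp : ∀ g h, p (g * h) = p g + p h) {c : G → ℝ}
    (hs : ∀ g, c g⁻¹ = c g) (z : Γ) : push p c (-z) = push p c z := by
  unfold push
  simp only [neg_eq_zero]
  split_ifs
  · rfl
  · refine Finset.sum_bij' (fun g _ => g⁻¹) (fun g _ => g⁻¹) ?_ ?_ ?_ ?_ ?_
    · intro g hg
      rw [mem_filter] at hg ⊢
      exact ⟨mem_univ _, by rw [p_inv hp, hg.2, neg_neg]⟩
    · intro g hg
      rw [mem_filter] at hg ⊢
      exact ⟨mem_univ _, by rw [p_inv hp, hg.2]⟩
    · intro g _; simp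
    · intro g _; simp
    · intro g _; exact (hs g).symm

lemma push_ne_zero_iff (p : G → Γ) {c : G → ℝ} (hc : ∀ g, 0 ≤ c g) (z : Γ) :
    push p c z ≠ 0 ↔ z ≠ 0 ∧ ∃ g, p g = z ∧ c g ≠ 0 := by
  unfold push
  split_ifs with h
  · simp [h]
  · rw [Ne, sum_eq_zero_iff_of_nonneg (fun g _ => hc g)]
    simp only [mem_filter, mem_univ, true_and, not_forall, ne_eq, h, not_false_eq_true]
    constructor
    · rintro ⟨g, hg, hg2⟩
      exact ⟨g, hg, hg2⟩
    · rintro ⟨g, hg, hg2⟩
      exact ⟨g, hg, hg2⟩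

variable [DecidableEq G]

/-- pulling back a cut -/
lemma cutCap_pull {p : G → Γ} (hp : ∀ g h, p (g * h) = p g + p h)
    (hsurj : Function.Surjective p) {c : G → ℝ} (hs : ∀ g, c g⁻¹ = c g) (S : Finset Γ) :
    cutCap (fun x y : G => c (x⁻¹ * y)) (univ.filter fun x => p x ∈ S) =
      (Fintype.card G / Fintype.card Γ : ℝ) * cutCap (fun z w => push p c (z - w)) S := by
  have h1 : ∀ x : G, ∑ y ∈ (univ.filter fun x => p x ∈ S)ᶜ, (if p x ∈ S then c (x⁻¹ * y) else 0) =
      if p x ∈ S then ∑ w ∈ Sᶜ, push p c (p x - w) else 0 := by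
    intro x
    split_ifs with hx
    · have h2 : (univ.filter fun x => p x ∈ S)ᶜ = univ.filter fun x => p x ∈ Sᶜ := by
        ext y; simp
      rw [h2, sum_filter, ← Equiv.sum_comp (Equiv.mulLeft x)]
      simp only [Equiv.coe_mulLeft, inv_mul_cancel_left]
      rw [← Finset.sum_fiberwise (s := univ) (g := p)]
      rw [← sum_filter_add_sum_filter_not univ (fun z : Γ => p x + z ∈ Sᶜ)]
      have h3 : ∑ z with ¬ (p x + z ∈ Sᶜ), ∑ g with p g = z,
          (if p (x * g) ∈ Sᶜ then c g else 0) = 0 := by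
        apply sum_eq_zero; intro z hz
        apply sum_eq_zero; intro g hg
        rw [if_neg]
        rw [hp, (mem_filter.1 hg).2]
        exact (mem_filter.1 hz).2
      rw [h3, add_zero]
      refine Finset.sum_bij (fun z _ => p x + z) ?_ ?_ ?_ ?_
      · intro z hz
        exact (mem_filter.1 hz).2
      · intro a _ b _ hab
        exact add_left_cancel hab
      · intro w hw
        refine ⟨w - p x, ?_, by simp⟩
        rw [mem_filter]
        exact ⟨mem_univ _, by simpa using hw⟩
      · intro z hz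
        have hz' := (mem_filter.1 hz).2
        have hz0 : z ≠ 0 := by
          rintro rfl
          rw [add_zero, mem_compl] at hz'
          exact hz' hx
        rw [show p x - (p x + z) = -z by abel, push_neg hp hs]
        unfold push
        rw [if_neg hz0]
        apply sum_congr rfl; intro g hg
        rw [hp, (mem_filter.1 hg).2, if_pos hz']
    · simp
  calc cutCap (fun x y : G => c (x⁻¹ * y)) (univ.filter fun x => p x ∈ S)
      = ∑ x, ∑ y ∈ (univ.filter fun x => p x ∈ S)ᶜ, (if p x ∈ S then c (x⁻¹ * y) else 0) := by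
        unfold cutCap
        rw [sum_filter]
        apply sum_congr rfl; intro x _
        split_ifs
        · rfl
        · simp
    _ = ∑ x, (fun z => if z ∈ S then ∑ w ∈ Sᶜ, push p c (z - w) else 0) (p x) :=
        sum_congr rfl fun x _ => h1 x
    _ = _ := by
        rw [sum_comp_p p hp hsurj (fun z => if z ∈ S then ∑ w ∈ Sᶜ, push p c (z - w) else 0)]
        congr 1
        unfold cutCap
        rw [← sum_filter]
        simp

lemma card_pull {p : G → Γ} (hp : ∀ g h, p (g * h) = p g + p h)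
    (hsurj : Function.Surjective p) (S : Finset Γ) :
    (((univ.filter fun x => p x ∈ S).card : ℕ) : ℝ) =
      (Fintype.card G / Fintype.card Γ : ℝ) * S.card := by
  have h := sum_comp_p p hp hsurj (fun z => if z ∈ S then (1 : ℝ) else 0)
  rw [← sum_filter] at h
  simpa using h

theorem phi_le_push [Nontrivial Γ] {p : G → Γ} (hp : ∀ g h, p (g * h) = p g + p h)
    (hsurj : Function.Surjective p) {c : G → ℝ} (hc : ∀ g, 0 ≤ c g) (hs : ∀ g, c g⁻¹ = c g) :
    phi (fun x y : G => c (x⁻¹ * y)) * Fintype.card G ≤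
      phi (fun z w : Γ => push p c (z - w)) * Fintype.card Γ := by
  have hG : (0 : ℝ) < Fintype.card G := by
    have := Fintype.card_pos (α := G); positivity
  have hΓ : (0 : ℝ) < Fintype.card Γ := by
    have := Fintype.card_pos (α := Γ); positivity
  set m : ℝ := Fintype.card G / Fintype.card Γ with hm
  have hmpos : 0 < m := by positivity
  have key : phi (fun x y : G => c (x⁻¹ * y)) * m ≤ phi (fun z w : Γ => push p c (z - w)) := by
    apply le_phi
    intro S _ _
    have h1 := phi_mul_le (c := fun x y : G => c (x⁻¹ * y)) (fun x y => hc _)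
      (univ.filter fun x => p x ∈ S)
    have h2 : (univ.filter fun x => p x ∈ S)ᶜ = univ.filter fun x => p x ∈ Sᶜ := by
      ext y; simp
    rw [h2, cutCap_pull hp hsurj hs, card_pull hp hsurj, card_pull hp hsurj, ← hm] at h1
    have h3 : m * (phi (fun x y : G => c (x⁻¹ * y)) * m * ((S.card : ℝ) * ((Sᶜ).card : ℝ))) ≤
        m * cutCap (fun z w => push p c (z - w)) S := by
      calc _ = phi (fun x y : G => c (x⁻¹ * y)) * (m * (S.card : ℝ) * (m * ((Sᶜ).card : ℝ))) := by
            ring
        _ ≤ _ := h1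
    exact le_of_mul_le_mul_left h3 hmpos
  calc phi (fun x y : G => c (x⁻¹ * y)) * Fintype.card G
      = phi (fun x y : G => c (x⁻¹ * y)) * m * Fintype.card Γ := by
        rw [hm]; field_simp
    _ ≤ _ := mul_le_mul_of_nonneg_right key hΓ.le

/-- minimum of a subadditive function over the fibres -/
theorem exists_min {p : G → Γ} (hp : ∀ g h, p (g * h) = p g + p h)
    (hsurj : Function.Surjective p) {F : G → ℝ} (hF : ∀ g h, F (g * h) ≤ F g + F h)
    (hinv : ∀ g, F g⁻¹ = F g) :
    ∃ r : Γ → ℝ, (∀ z w, r (z + w) ≤ r z + r w) ∧ (∀ z, r (-z) = r z) ∧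
      (∀ g, r (p g) ≤ F g) ∧ ∀ z, ∃ g, p g = z ∧ r z = F g := by
  have hex : ∀ z : Γ, ∃ g, p g = z ∧ ∀ g', p g' = z → F g ≤ F g' := by
    intro z
    obtain ⟨g0, hg0⟩ := hsurj z
    obtain ⟨g, hg, hmin⟩ := exists_min_image (univ.filter fun g => p g = z) F
      ⟨g0, mem_filter.2 ⟨mem_univ _, hg0⟩⟩
    exact ⟨g, (mem_filter.1 hg).2, fun g' hg' => hmin g' (mem_filter.2 ⟨mem_univ _, hg'⟩)⟩
  choose s hs1 hs2 using hex
  have hle : ∀ g, F (s (p g)) ≤ F g := fun g => hs2 (p g) g rfl
  refine ⟨fun z => F (s z), ?_, ?_, hle, fun z => ⟨s z, hs1 z, rfl⟩⟩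
  · intro z w
    calc F (s (z + w)) ≤ F (s z * s w) := hs2 _ _ (by rw [hp, hs1, hs1])
      _ ≤ _ := hF _ _
  · intro z
    apply le_antisymm
    · calc F (s (-z)) ≤ F (s z)⁻¹ := hs2 _ _ (by rw [p_inv hp, hs1])
        _ = _ := hinv _
    · calc F (s z) ≤ F (s (-z))⁻¹ := hs2 _ _ (by rw [p_inv hp, hs1, neg_neg])
        _ = _ := hinv _

theorem sum_push_le {p : G → Γ} {c F : G → ℝ} {r : Γ → ℝ} (hc : ∀ g, 0 ≤ c g)
    (hr0 : 0 ≤ r 0) (hr : ∀ g, r (p g) ≤ F g) :
    ∑ z, push p c z * r z ≤ ∑ g, c g * F g := by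
  calc ∑ z, push p c z * r z ≤ ∑ z, (∑ g with p g = z, c g) * r z := by
        apply sum_le_sum; intro z _
        unfold push
        split_ifs with h
        · rw [h, zero_mul]
          exact mul_nonneg (sum_nonneg fun g _ => hc g) hr0
        · exact le_rfl
    _ = ∑ z, ∑ g with p g = z, c g * r (p g) := by
        apply sum_congr rfl; intro z _
        rw [sum_mul]
        apply sum_congr rfl; intro g hg
        rw [(mem_filter.1 hg).2]
    _ = ∑ g, c g * r (p g) := Finset.sum_fiberwise (s := univ) (g := p) (f := fun g => c g * r (p g))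
    _ ≤ _ := sum_le_sum fun g _ => mul_le_mul_of_nonneg_left (hr g) (hc g)

/-- the map to the abelianization, written additively -/
lemma ofAb_mul {G : Type*} [Group G] (g h : G) :
    Additive.ofMul (Abelianization.of (g * h)) =
      Additive.ofMul (Abelianization.of g) + Additive.ofMul (Abelianization.of h) := by
  rw [map_mul, ofMul_mul]

lemma ofAb_surj {G : Type*} [Group G] :
    Function.Surjective (fun g : G => Additive.ofMul (Abelianization.of g)) := by
  intro z
  obtain ⟨g, hg⟩ := QuotientGroup.mk_surjective (Additive.toMul z)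
  exact ⟨g, by
    change Additive.ofMul (Abelianization.of g) = z
    have : Abelianization.of g = Additive.toMul z := hg
    rw [this]; rfl⟩

end Vale.Agent.P318.R2.H378
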