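import Mathlib

/-!
# Generation of the special linear group over a field by one row and one column of transvections

The proof is the one of the tree for local rings.
-/

set_option linter.all false

namespace Vale.Agent.P318.R2.H378.SlG

variable {ι : Type*} [Fintype ι] [DecidableEq ι] {R : Type*} [CommRing R]

/-- column `j` of `M` is the `j`-th standard vector -/
def StdCol (M : Matrix.SpecialLinearGroup ι R) (j : ι) : Prop :=
  ∀ i, (M : Matrix ι ι R) i j = if i = j then 1 else 0

theorem coe_transvection_mul_same {i j : ι} (h : i ≠ j) (a : R) (M : Matrix.SpecialLinearGroup ι R) (k : ι) :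
    ((Matrix.SpecialLinearGroup.transvection h a * M : Matrix.SpecialLinearGroup ι R) : Matrix ι ι R) i k
      = (M : Matrix ι ι R) i k + a * (M : Matrix ι ι R) j k := by
  rw [Matrix.SpecialLinearGroup.coe_mul]
  exact Matrix.transvection_mul_apply_same i j k a M

theorem coe_transvection_mul_of_ne {i j : ι} (h : i ≠ j) (a : R) (M : Matrix.SpecialLinearGroup ι R)
    (l k : ι) (hl : l ≠ i) :
    ((Matrix.SpecialLinearGroup.transvection h a * M : Matrix.SpecialLinearGroup ι R) : Matrix ι ι R) l k
      = (M : Matrix ι ι R) l k := by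
  rw [Matrix.SpecialLinearGroup.coe_mul]
  exact Matrix.transvection_mul_apply_of_ne i j l k hl a M

theorem stdCol_transvection_mul {i j : ι} (h : i ≠ j) (a : R) (M : Matrix.SpecialLinearGroup ι R) (k : ι)
    (hk : StdCol M k) (hjk : j ≠ k) : StdCol (Matrix.SpecialLinearGroup.transvection h a * M) k := by
  intro l
  by_cases hl : l = i
  · subst hl
    rw [coe_transvection_mul_same, hk l, hk j, if_neg hjk, mul_zero, add_zero]
  · rw [coe_transvection_mul_of_ne h a M l k hl, hk l]

theorem exists_unit_entry [IsLocalRing R] (M : Matrix.SpecialLinearGroup ι R) (S : Finset ι)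
    (hS : ∀ j ∈ S, StdCol M j) (j0 : ι) (hj0 : j0 ∉ S) :
    ∃ i, i ∉ S ∧ IsUnit ((M : Matrix ι ι R) i j0) := by
  classical
  by_contra hcon
  push Not at hcon
  have hinv : ((M⁻¹ : Matrix.SpecialLinearGroup ι R) : Matrix ι ι R) * (M : Matrix ι ι R) = 1 := by
    rw [← Matrix.SpecialLinearGroup.coe_mul, inv_mul_cancel, Matrix.SpecialLinearGroup.coe_one]
  set N := ((M⁻¹ : Matrix.SpecialLinearGroup ι R) : Matrix ι ι R) with hN
  have hz : ∀ i ∈ S, N j0 i = 0 := by
    intro i hi
    have h1 := congrFun (congrFun hinv j0) i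
    rw [Matrix.mul_apply, Matrix.one_apply_ne (show j0 ≠ i from fun e => hj0 (by rw [e]; exact hi))] at h1
    rw [Finset.sum_eq_single i] at h1
    · rwa [hS i hi i, if_pos rfl, mul_one] at h1
    · intro k _ hk
      rw [hS i hi k, if_neg hk, mul_zero]
    · intro h; exact absurd (Finset.mem_univ _) h
  have h2 := congrFun (congrFun hinv j0) j0
  rw [Matrix.mul_apply, Matrix.one_apply_eq] at h2
  have h3 : (1 : R) ∈ IsLocalRing.maximalIdeal R := by
    rw [← h2]
    apply Ideal.sum_mem
    intro i _
    by_cases hi : i ∈ S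
    · rw [hz i hi, zero_mul]; exact Ideal.zero_mem _
    · exact Ideal.mul_mem_left _ _ ((IsLocalRing.mem_maximalIdeal _).2 (hcon i hi))
  exact (Ideal.ne_top_iff_one _).1 (IsLocalRing.maximalIdeal.isMaximal R).ne_top h3

theorem entry_eq_one_of_last (M : Matrix.SpecialLinearGroup ι R) (j0 : ι)
    (hS : ∀ j, j ≠ j0 → StdCol M j) : (M : Matrix ι ι R) j0 j0 = 1 := by
  have h1 : (M : Matrix ι ι R) = (1 : Matrix ι ι R).updateCol j0 (fun i => (M : Matrix ι ι R) i j0) := by
    ext i j
    by_cases hj : j = j0
    · subst hj; simp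
    · rw [Matrix.updateCol_ne hj, hS j hj i, Matrix.one_apply]
  have h2 := M.det_coe
  rw [h1, ← Matrix.cramer_apply, Matrix.cramer_one] at h2
  exact h2

/-- make the pivot equal to `1` -/
theorem exists_pivot [IsLocalRing R] (H : Subgroup (Matrix.SpecialLinearGroup ι R))
    (hH : ∀ (i j : ι) (h : i ≠ j) (a : R), Matrix.SpecialLinearGroup.transvection h a ∈ H)
    (M : Matrix.SpecialLinearGroup ι R) (S : Finset ι) (hS : ∀ j ∈ S, StdCol M j) (j0 : ι) (hj0 : j0 ∉ S) :
    ∃ h ∈ H, (∀ j ∈ S, StdCol (h * M) j) ∧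
      ((h * M : Matrix.SpecialLinearGroup ι R) : Matrix ι ι R) j0 j0 = 1 := by
  classical
  -- first case: a unit off the diagonal
  have key : ∀ (M : Matrix.SpecialLinearGroup ι R), (∀ j ∈ S, StdCol M j) → ∀ i1, i1 ∉ S → i1 ≠ j0 →
      IsUnit ((M : Matrix ι ι R) i1 j0) → ∃ h ∈ H, (∀ j ∈ S, StdCol (h * M) j) ∧
      ((h * M : Matrix.SpecialLinearGroup ι R) : Matrix ι ι R) j0 j0 = 1 := by
    intro M hS i1 hi1 hne hu
    obtain ⟨v, hv⟩ := hu.exists_left_inv
    refine ⟨Matrix.SpecialLinearGroup.transvection hne.symm ((1 - (M : Matrix ι ι R) j0 j0) * v),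
      hH _ _ _ _, ?_, ?_⟩
    · intro j hj
      exact stdCol_transvection_mul _ _ M j (hS j hj) (fun e => hi1 (e ▸ hj))
    · rw [coe_transvection_mul_same, mul_assoc, hv, mul_one]
      ring
  by_cases h1 : ∃ i1, i1 ∉ S ∧ i1 ≠ j0 ∧ IsUnit ((M : Matrix ι ι R) i1 j0)
  · obtain ⟨i1, h1, h2, h3⟩ := h1
    exact key M hS i1 h1 h2 h3
  · push Not at h1
    obtain ⟨i, hi, hu⟩ := exists_unit_entry M S hS j0 hj0
    have hi0 : i = j0 := by
      by_contra hne
      exact h1 i hi hne hu
    subst hi0
    by_cases h2 : ∃ i1, i1 ∉ S ∧ i1 ≠ i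
    · obtain ⟨i1, hi1, hne⟩ := h2
      have hnu := h1 i1 hi1 hne
      -- add row `i` to row `i1`
      set T := Matrix.SpecialLinearGroup.transvection hne (1 : R) with hT
      have hS' : ∀ j ∈ S, StdCol (T * M) j := fun j hj =>
        stdCol_transvection_mul _ _ M j (hS j hj) (fun e => hi (e ▸ hj))
      have hu' : IsUnit (((T * M : Matrix.SpecialLinearGroup ι R) : Matrix ι ι R) i1 i) := by
        rw [coe_transvection_mul_same, one_mul]
        by_contra hcon
        have h3 : (M : Matrix ι ι R) i1 i + (M : Matrix ι ι R) i i ∈ IsLocalRing.maximalIdeal R :=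
          (IsLocalRing.mem_maximalIdeal _).2 hcon
        have h4 : (M : Matrix ι ι R) i1 i ∈ IsLocalRing.maximalIdeal R :=
          (IsLocalRing.mem_maximalIdeal _).2 hnu
        have h5 := Ideal.sub_mem _ h3 h4
        rw [add_sub_cancel_left] at h5
        exact (IsLocalRing.mem_maximalIdeal _).1 h5 hu
      obtain ⟨h, hh, h6, h7⟩ := key (T * M) hS' i1 hi1 hne hu'
      refine ⟨h * T, H.mul_mem hh (hH _ _ _ _), ?_, ?_⟩
      · intro j hj; rw [mul_assoc]; exact h6 j hj
      · rw [mul_assoc]; exact h7
    · push Not at h2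
      refine ⟨1, H.one_mem, ?_, ?_⟩
      · simpa only [one_mul] using hS
      · rw [one_mul]
        apply entry_eq_one_of_last
        intro j hj
        apply hS
        by_contra hj'
        exact hj (h2 j hj')

/-- clear the column -/
theorem exists_clear (H : Subgroup (Matrix.SpecialLinearGroup ι R))
    (hH : ∀ (i j : ι) (h : i ≠ j) (a : R), Matrix.SpecialLinearGroup.transvection h a ∈ H)
    (M : Matrix.SpecialLinearGroup ι R) (S : Finset ι) (hS : ∀ j ∈ S, StdCol M j) (j0 : ι) (hj0 : j0 ∉ S)
    (h1 : (M : Matrix ι ι R) j0 j0 = 1) (T : Finset ι) (hT : j0 ∉ T) :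
    ∃ h ∈ H, (∀ j ∈ S, StdCol (h * M) j) ∧
      ((h * M : Matrix.SpecialLinearGroup ι R) : Matrix ι ι R) j0 j0 = 1 ∧
      ∀ i ∈ T, ((h * M : Matrix.SpecialLinearGroup ι R) : Matrix ι ι R) i j0 = 0 := by
  classical
  induction T using Finset.induction_on with
  | empty =>
    exact ⟨1, H.one_mem, by simpa only [one_mul] using hS, by simpa only [one_mul] using h1, by simp⟩
  | insert i T hi ih =>
    obtain ⟨h, hh, h2, h3, h4⟩ := ih (fun h => hT (Finset.mem_insert_of_mem h))
    have hij : i ≠ j0 := fun e => hT (e ▸ Finset.mem_insert_self _ _)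
    refine ⟨Matrix.SpecialLinearGroup.transvection hij
      (-((h * M : Matrix.SpecialLinearGroup ι R) : Matrix ι ι R) i j0) * h, H.mul_mem (hH _ _ _ _) hh, ?_,
      ?_, ?_⟩
    · intro j hj
      rw [mul_assoc]
      exact stdCol_transvection_mul _ _ _ j (h2 j hj) (fun e => hj0 (e ▸ hj))
    · rw [mul_assoc, coe_transvection_mul_of_ne _ _ _ _ _ hij.symm, h3]
    · intro l hl
      rw [Finset.mem_insert] at hl
      rw [mul_assoc]
      by_cases hli : l = i
      · subst hli
        rw [coe_transvection_mul_same, h3, mul_one, add_neg_cancel]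
      · rw [coe_transvection_mul_of_ne _ _ _ _ _ hli]
        exact h4 l (hl.resolve_left hli)

/-- A subgroup of `SL` over a local ring containing all transvections is everything. -/
theorem eq_top_of_transvections [IsLocalRing R] (H : Subgroup (Matrix.SpecialLinearGroup ι R))
    (hH : ∀ (i j : ι) (h : i ≠ j) (a : R), Matrix.SpecialLinearGroup.transvection h a ∈ H) : H = ⊤ := by
  classical
  have main : ∀ (n : ℕ) (S : Finset ι), (Finset.univ \ S).card = n →
      ∀ M : Matrix.SpecialLinearGroup ι R, (∀ j ∈ S, StdCol M j) → M ∈ H := by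
    intro n
    induction n with
    | zero =>
      intro S hS M hM
      have hS' : ∀ j, j ∈ S := by
        intro j
        by_contra hj
        have : j ∈ Finset.univ \ S := Finset.mem_sdiff.2 ⟨Finset.mem_univ _, hj⟩
        rw [Finset.card_eq_zero] at hS
        rw [hS] at this
        exact absurd this (Finset.notMem_empty _)
      have : M = 1 := by
        ext i j
        rw [hM j (hS' j) i, Matrix.SpecialLinearGroup.coe_one, Matrix.one_apply]
      rw [this]; exact H.one_mem
    | succ n ih =>
      intro S hS M hM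
      have hne : (Finset.univ \ S).Nonempty := by
        rw [← Finset.card_pos, hS]; omega
      obtain ⟨j0, hj0⟩ := hne
      have hj0' : j0 ∉ S := (Finset.mem_sdiff.1 hj0).2
      obtain ⟨h, hh, h1, h2⟩ := exists_pivot H hH M S hM j0 hj0'
      obtain ⟨g, hg, h3, h4, h5⟩ := exists_clear H hH (h * M) S h1 j0 hj0' h2
        (Finset.univ.erase j0) (Finset.notMem_erase _ _)
      have h6 : g * (h * M) ∈ H := by
        apply ih (insert j0 S)
        · rw [Finset.sdiff_insert, Finset.card_erase_of_mem hj0, hS]; rfl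
        · intro j hj
          rcases Finset.mem_insert.1 hj with rfl | hj
          · intro i
            by_cases hi : i = j
            · subst hi; rw [if_pos rfl, h4]
            · rw [if_neg hi]; exact h5 i (Finset.mem_erase.2 ⟨hi, Finset.mem_univ _⟩)
          · exact h3 j hj
      have : M = h⁻¹ * (g⁻¹ * (g * (h * M))) := by group
      rw [this]
      exact H.mul_mem (H.inv_mem hh) (H.mul_mem (H.inv_mem hg) h6)
  rw [eq_top_iff]
  intro M _
  exact main _ ∅ rfl M (fun j hj => absurd hj (Finset.notMem_empty _))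

/-- commutator formula for transvections -/
theorem transvection_comm {i k j : ι} (hik : i ≠ k) (hkj : k ≠ j) (hij : i ≠ j) (a b : R) :
    Matrix.SpecialLinearGroup.transvection hij (a * b)
      = Matrix.SpecialLinearGroup.transvection hik a * Matrix.SpecialLinearGroup.transvection hkj b
        * (Matrix.SpecialLinearGroup.transvection hik a)⁻¹
        * (Matrix.SpecialLinearGroup.transvection hkj b)⁻¹ := by
  rw [eq_mul_inv_iff_mul_eq, eq_mul_inv_iff_mul_eq]
  apply Subtype.ext
  simp only [Matrix.SpecialLinearGroup.coe_mul, Matrix.SpecialLinearGroup.transvection_coe]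
  have h1 : (Matrix.single k j b : Matrix ι ι R) * Matrix.single i k a = 0 :=
    Matrix.single_mul_single_of_ne _ _ _ _ hij.symm _
  have h2 : (Matrix.single i j (a * b) : Matrix ι ι R) * Matrix.single k j b = 0 :=
    Matrix.single_mul_single_of_ne _ _ _ _ hkj.symm _
  have h3 : (Matrix.single i j (a * b) : Matrix ι ι R) * Matrix.single i k a = 0 :=
    Matrix.single_mul_single_of_ne _ _ _ _ hij.symm _
  have h4 : (Matrix.single i k a : Matrix ι ι R) * Matrix.single k j b = Matrix.single i j (a * b) :=
    Matrix.single_mul_single_same _ _ _ _ _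
  simp only [Matrix.add_mul, Matrix.mul_add, Matrix.one_mul, Matrix.mul_one, h1, h2, h3, h4,
    Matrix.zero_mul, add_zero, zero_mul]
  abel

/-- It suffices to have the transvections in one row and one column. -/
theorem eq_top_of_row_col [IsLocalRing R] (H : Subgroup (Matrix.SpecialLinearGroup ι R)) (i0 : ι)
    (hrow : ∀ (j : ι) (h : i0 ≠ j) (a : R), Matrix.SpecialLinearGroup.transvection h a ∈ H)
    (hcol : ∀ (i : ι) (h : i ≠ i0) (a : R), Matrix.SpecialLinearGroup.transvection h a ∈ H) : H = ⊤ := by
  apply eq_top_of_transvections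
  intro i j hij a
  by_cases hi : i = i0
  · subst hi; exact hrow j hij a
  · by_cases hj : j = i0
    · subst hj; exact hcol i hij a
    · have hj' : i0 ≠ j := fun e => hj e.symm
      have := transvection_comm hi hj' hij a 1
      rw [mul_one] at this
      rw [this]
      exact H.mul_mem (H.mul_mem (H.mul_mem (hcol _ _ _) (hrow _ _ _)) (H.inv_mem (hcol _ _ _)))
        (H.inv_mem (hrow _ _ _))

end Vale.Agent.P318.R2.H378.SlG
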