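import Vale.Agent.P318.R2.H402.SlFour
import Vale.Agent.P318.R2.H378.SlGen

/-!
# Two subgroups of transvections generate the special linear group

`two_psl`: for degree at least three, `PSL (n, F)` is generated by two subgroups all of whose
elements are products of at most four conjugates of `x`, `x⁻¹`, for every `x ≠ 1`.
-/

open Matrix

set_option linter.unusedSectionVars false

namespace Vale.Agent.P318.R2.H378

open Vale.Agent.P318.R2.H402

variable {n F : Type*} [Fintype n] [DecidableEq n] [Field F]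

theorem tv_mul' {v φ ψ : n → F} (ha : φ ⬝ᵥ v = 0) (hb : ψ ⬝ᵥ v = 0) (hab : (φ + ψ) ⬝ᵥ v = 0) :
    tv v φ ha * tv v ψ hb = tv v (φ + ψ) hab := by
  apply Subtype.ext
  change (1 + vecMulVec v φ) * (1 + vecMulVec v ψ) = 1 + vecMulVec v (φ + ψ)
  simp only [mul_add, add_mul, mul_one, one_mul, vecMulVec_mul_vecMulVec, ha, zero_smul,
    vecMulVec_zero, add_zero, vecMulVec_add, add_assoc]

theorem tv_zero' {v : n → F} (h : (0 : n → F) ⬝ᵥ v = 0) : tv v 0 h = 1 := by
  apply Subtype.ext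
  change 1 + vecMulVec v 0 = 1
  simp

theorem tv_inv' {v φ : n → F} (ha : φ ⬝ᵥ v = 0) (ha' : (-φ) ⬝ᵥ v = 0) :
    (tv v φ ha)⁻¹ = tv v (-φ) ha' := by
  apply inv_eq_of_mul_eq_one_right
  have h0 : (φ + -φ) ⬝ᵥ v = 0 := by simp
  rw [tv_mul' ha ha' h0]
  have : ∀ (z : n → F) (hz : z ⬝ᵥ v = 0), z = 0 → tv v z hz = 1 := by
    rintro z hz rfl
    exact tv_zero' hz
  exact this _ _ (by simp)

/-- The transvections `1 + a ⊗ e`, where `e` is a coordinate function vanishing at `a`. -/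
def colS (i₀ : n) : Subgroup (Matrix.SpecialLinearGroup n F) where
  carrier := {M | ∃ (a : n → F) (h : (Pi.single i₀ 1 : n → F) ⬝ᵥ a = 0),
    M = tv a (Pi.single i₀ 1) h}
  one_mem' := ⟨0, by simp, (tv_zero _).symm⟩
  mul_mem' := by
    rintro _ _ ⟨a, ha, rfl⟩ ⟨b, hb, rfl⟩
    exact ⟨a + b, by rw [dotProduct_add, ha, hb, add_zero], tv_mul ha hb _⟩
  inv_mem' := by
    rintro _ ⟨a, ha, rfl⟩
    exact ⟨-a, by rw [dotProduct_neg, ha, neg_zero], tv_inv ha _⟩

/-- The transvections `1 + e ⊗ b`, where `e` is a basis vector at which `b` vanishes. -/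
def rowS (i₀ : n) : Subgroup (Matrix.SpecialLinearGroup n F) where
  carrier := {M | ∃ (b : n → F) (h : b ⬝ᵥ (Pi.single i₀ 1 : n → F) = 0),
    M = tv (Pi.single i₀ 1) b h}
  one_mem' := ⟨0, by simp, (tv_zero' _).symm⟩
  mul_mem' := by
    rintro _ _ ⟨a, ha, rfl⟩ ⟨b, hb, rfl⟩
    exact ⟨a + b, by rw [add_dotProduct, ha, hb, add_zero], tv_mul' ha hb _⟩
  inv_mem' := by
    rintro _ ⟨a, ha, rfl⟩
    exact ⟨-a, by rw [neg_dotProduct, ha, neg_zero], tv_inv' ha _⟩

theorem col_sup_row (i₀ : n) : colS (F := F) i₀ ⊔ rowS i₀ = ⊤ := by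
  apply SlG.eq_top_of_row_col _ i₀
  · intro j h a
    apply Subgroup.mem_sup_right
    have h0 : (Pi.single j a : n → F) ⬝ᵥ (Pi.single i₀ 1 : n → F) = 0 := by
      simp [h]
    refine ⟨Pi.single j a, h0, ?_⟩
    apply Subtype.ext
    rw [Matrix.SpecialLinearGroup.transvection_coe]
    change _ = 1 + vecMulVec (Pi.single i₀ 1) (Pi.single j a)
    congr 1
    ext k l
    simp only [Matrix.single_apply, vecMulVec_apply, Pi.single_apply]
    by_cases hk : k = i₀ <;> by_cases hl : l = j <;>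
      simp [hk, hl, eq_comm (a := i₀), eq_comm (a := j)]
  · intro i h a
    apply Subgroup.mem_sup_left
    have h0 : (Pi.single i₀ 1 : n → F) ⬝ᵥ (Pi.single i a : n → F) = 0 := by
      simp [h.symm]
    refine ⟨Pi.single i a, h0, ?_⟩
    apply Subtype.ext
    rw [Matrix.SpecialLinearGroup.transvection_coe]
    change _ = 1 + vecMulVec (Pi.single i a) (Pi.single i₀ 1)
    congr 1
    ext k l
    simp only [Matrix.single_apply, vecMulVec_apply, Pi.single_apply]
    by_cases hk : k = i <;> by_cases hl : l = i₀ <;>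
      simp [hk, hl, eq_comm (a := i₀), eq_comm (a := i)]

/-- **`PSL (n, F)`, degree at least three.** -/
theorem two_psl (hn : 3 ≤ Fintype.card n) : Two (Matrix.ProjectiveSpecialLinearGroup n F) 4 := by
  obtain ⟨i₀⟩ : Nonempty n := Fintype.card_pos_iff.1 (by omega)
  set q : Matrix.SpecialLinearGroup n F →* Matrix.ProjectiveSpecialLinearGroup n F :=
    QuotientGroup.mk' _ with hq
  have hs : Function.Surjective q := QuotientGroup.mk'_surjective _
  refine ⟨(colS i₀).map q, (rowS i₀).map q, ?_, ?_⟩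
  · rw [← Subgroup.map_sup, col_sup_row, Subgroup.map_top_of_surjective q hs]
  · intro x hx y hy
    obtain ⟨g, rfl⟩ := hs x
    have hg : g ∉ Subgroup.center (Matrix.SpecialLinearGroup n F) := fun h =>
      hx ((QuotientGroup.eq_one_iff g).2 h)
    rcases hy with ⟨_, ⟨a, ha, rfl⟩, rfl⟩ | ⟨_, ⟨a, ha, rfl⟩, rfl⟩
    · exact (four_tv hn g hg a _ ha).map q
    · exact (four_tv hn g hg _ a ha).map q

end Vale.Agent.P318.R2.H378
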